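import Crest.Agent.X212.Cys97.Gain
import Crest.Agent.X212.Cac9.Main
import Crest.Agent.X212.Eng12.Main
import Crest.Agent.X212.Hd34.Ev
import Crest.Agent.X212.Hd34.Dn
import Crest.Agent.X212.Hd34.Fin

/-!
# Row 212, CYC-SM (helper97): the cyclic seeds depend smoothly on the parameter
-/

set_option autoImplicit false
set_option linter.unusedSectionVars false
set_option maxSynthPendingDepth 3
noncomputable section
open scoped Manifold ContDiff Topology InnerProductSpace BoundedContinuousFunction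
open MeasureTheory Set Function Filter Real

namespace Crest.Agent.X212.Cys97
open An Sob92 Prm93 Wz78 Mon62 Cyc79 Ten12 Dm
open Ell97 (UB)
open Nk89 (WtP wm integral_wm)
open ContinuousLinearMap (adjoint)
open Hd34.Fin (cbG)

variable {E : Type} [NormedAddCommGroup E] [NormedSpace ℝ E] [FiniteDimensional ℝ E]
  [MeasurableSpace E] [BorelSpace E]
  {HM : Type} [TopologicalSpace HM] {I : ModelWithCorners ℝ E HM} [I.Boundaryless]
  {M : Type} [TopologicalSpace M] [ChartedSpace HM M] [IsManifold I ∞ M]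
  [MeasurableSpace M] [T2Space M] [BorelSpace M] [SecondCountableTopology M] {ι : Type} [Fintype ι]
  {lam : Type} [Fintype lam] {κ : Type} [Fintype κ] [DecidableEq κ]
  {V : Type} [NormedAddCommGroup V] [InnerProductSpace ℝ V] [CompleteSpace V]
  {K : Type} [NormedAddCommGroup K] [InnerProductSpace ℝ K] [CompleteSpace K]

theorem adj_iso {e : V →L[ℝ] K} (h : ∀ a b, ⟪e a, e b⟫_ℝ = ⟪a, b⟫_ℝ) (a : V) : adjoint e (e a) = a :=
  ext_inner_left ℝ fun b => by rw [ContinuousLinearMap.adjoint_inner_right, h]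

theorem norm_adj_iso {e : V →L[ℝ] K} (h : ∀ a b, ⟪e a, e b⟫_ℝ = ⟪a, b⟫_ℝ) : ‖adjoint e‖ ≤ 1 :=
  (LinearIsometryEquiv.norm_map _ _).trans_le (e.opNorm_le_bound zero_le_one fun a => by
    rw [one_mul, norm_eq_sqrt_real_inner, h, ← norm_eq_sqrt_real_inner])

section one
variable {P F : Fr I M ι} {ℓ : M → ℝ} (hℓ : Sm I ℓ) (hμ : F.μ = wm P.μ ℓ)
include hℓ hμ

theorem ip_wm (u v : M → V) :
    F.ip 0 u v = P.ip 0 (fun x => exp (ℓ x) • u x) fun x => exp (ℓ x) • v x := by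
  simp only [Pre.ip, hμ, integral_wm hℓ.continuous, real_inner_smul_left, real_inner_smul_right,
    smul_eq_mul]
  congr 1; funext x; rw [← mul_assoc, ← exp_add, two_mul]

theorem rep_ew0 : F.RepT P.toPre (ew V P F ℓ) fun u z => exp (ℓ z) • u z :=
  (rep_liftT (C := 1) (fun u hu => (sS (Nk89.sm_exp hℓ) ⟨u, hu⟩).2)
    (fun u _ v _ => funext fun x => by simp) (fun c u _ => funext fun x => by
      simp [smul_comm c]) zero_le_one fun u _ => by
        rw [one_mul, Pre.nrm, Pre.nrm, ip_wm hℓ hμ]).1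

theorem inner_ew0 (x y : HT F.toPre V 0) : ⟪ew V P F ℓ x, ew V P F ℓ y⟫_ℝ = ⟪x, y⟫_ℝ := by
  induction x, y using H_ind₂ with
  | hP => exact isClosed_eq (by fun_prop) (by fun_prop)
  | h u v =>
    rw [RepT_toH (rep_ew0 hℓ hμ), RepT_toH (rep_ew0 hℓ hμ), Pre.inner_toH, Pre.inner_toH,
      ip_wm hℓ hμ]

theorem adj_ew0 (s : Sec I (triv M V)) :
    adjoint (ew V P F ℓ) (P.toH 0 _ s) = F.toH 0 _ (sS (sm_inv hℓ) s) := by
  rw [← RepT_toH' (rep_ew0 hℓ hμ) (sS (sm_inv hℓ) s) s (funext fun z => by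
    simp [sS, smul_smul]), adj_iso (inner_ew0 hℓ hμ)]

end one

variable {J : Type} {X Y : J → Type} [∀ i, NormedAddCommGroup (X i)] [∀ i, NormedSpace ℝ (X i)]
  {D : Dm I M ι X Y} {G : ∀ i, X i → Fr I M ι} {A : ∀ i, Y i → ι → M → En κ} {j : ℕ}
  {f f' : ∀ i, Y i → M → ℝ}

theorem SepY.symm (h : SepY D j f f') : SepY D j f' f :=
  let ⟨_, a, b⟩ := h.ex
  ⟨h.r, h.l, _, (UB.const 1).sub a, fun i y x => ⟨fun e => by linarith [(b i y x).2 e],
    fun e => by linarith [(b i y x).1 e]⟩⟩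

/-- **the transported base fields** -/
theorem a0_bs (hj : 8 ≤ j) (mo : Mo D G A j) (ff : D.FF G) (u : Uw (Eu κ) D G)
    (ok : ∀ i y, Ok (G i (D.pt i y)) (A i y)) {p : J → M → En κ} (hp : UB D.P p)
    {e : ∀ i, u.Du.H (Eu κ) 0 i →L[ℝ] K} (he : ∀ i a b, ⟪e i a, e i b⟫_ℝ = ⟪a, b⟫_ℝ)
    (hs : SepY D j f f') : D.A0 False j fun i y z =>
      fb (e i ∘L ew _ (u.F i) (G i (D.pt i y)) (u.ℓ i (D.pt i y)))
        (bs (G i (D.pt i y)) (A i y) (p i) (f i y) (f' i y) z) := by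
  obtain ⟨φ, p1, p2⟩ := hs.ex
  obtain ⟨S, s1, s2⟩ := u.inv
  have h4 : 4 ≤ j := by omega
  have h7 : 7 ≤ j := by omega
  have hg := (A0.smul (Lev.self h7) h4 (((u.lc.a0 j h4).comp hj (h := fun r => exp (-r))
    (by fun_prop)).mul h7 hs.r) (A0.fixed (hp.clm hsL))).aff
  have st : St A u j _ (fun i => adjoint (e i)) φ := ⟨hj, mo, ff, fun i => ok i _, hg,
    ⟨1, fun i => norm_adj_iso (he i)⟩, p1, fun i y z h => (p2 i y z).2 fun h' => h (by simp [h']),
    fun i => (((u.F i).dense_toH 0 _).preimage ((adjoint (e i)).isOpenMap fun a =>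
      ⟨_, adj_iso (he i) a⟩)).mono fun k h => h.imp fun _ => Eq.symm⟩
  have sep : ∀ {θ : J → M → ℝ} {t : ℝ}, 0 < t → UB D.P θ → (∀ i z, φ i z < t → θ i z = 0) →
      ∀ i y, Sep (G i (D.pt i y)).toPre (θ i) (f' i y) := fun ht hθ e0 i y =>
    sep_cut (cbG ff i y (hs.r.sz.cb i y)) (cbG ff i y (p1.cb i)) (fun x => (p2 i y x).2)
      (cbG ff i y (hθ.cb i)) ht (e0 i)
  have fl : ∀ {θ : J → M → ℝ} {t : ℝ}, 0 < t → UB D.P θ → (∀ i z, φ i z < t → θ i z = 0) →
      Fl A (fun i y x => (exp (-u.ℓ i (D.pt i y) x) * f' i y x) • hsL (p i x))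
        (fun i => adjoint (e i)) θ fun i y z =>
        fb (e i ∘L ew _ (u.F i) (G i (D.pt i y)) (u.ℓ i (D.pt i y)))
          (bs (G i (D.pt i y)) (A i y) (p i) (θ i) (f' i y) z) := fun ht hθ e0 i y => by
    have c := cbG ff i y (hp.cb i)
    refine ⟨(s2 i y).Cb (fun a b => cbG ff i y ((s1 a b).cb i y))
      (Cb_clm _ (fi_bs (ok i y) (sep ht hθ e0 i y) c).cb), fun k s h z => ?_⟩
    rw [ct_fb', ContinuousLinearMap.adjoint_comp, ContinuousLinearMap.comp_apply, h,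
      adj_ew0 (u.lc.us.sz.sm i y) (u.μ i y), ct_bs (ok i y) (sep ht hθ e0 i y) c, uu]
    simp only [sS, map_smul, smul_apply, opL_hsL, smul_smul, exp_neg, mul_comm]
  obtain ⟨χ, c1, c2, c3, -⟩ := exists_ucut p1 one_half_lt_one
  have c4 := fun i z (h : φ i z < 1 / 2) => c2 i z h.le
  refine (A0.smul (Lev.self h7) h4 hs.l (st.base (fun a b c => ⟨_, fl a b c⟩) (Cac9.cac I M ι)
    Hd34.Ev.evStmt Hd34.Dn.dnStmt one_half_pos c1 c4 (fl one_half_pos c1 c4))).aff.congr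
      fun i y z => ?_
  rw [← map_smul, ← bs_mul (ok i y) (sep one_half_pos c1 c4 i y) (cbG ff i y (hp.cb i))
    ⟨cbG ff i y (hs.l.sz.cb i y), cbG ff i y (hs.r.sz.cb i y), φ i, cbG ff i y (p1.cb i),
      fun x => (p2 i y x).1, fun x => (p2 i y x).2⟩ fun x => ?_]
  by_cases h : f i y x = 0
  · rw [h, zero_mul]
  · rw [c3 i x ((p2 i y x).1 h), mul_one]

variable (I M ι lam) in
/-- **CYC-SM** -/
theorem sm : SmStmt I M ι lam := by
  classical
  intro J X Y _ _ D μ r κ ε j f f' w w' h ⟨u⟩ hp hs hw hw'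
  have a0 : ∀ c, D.A0 False j fun i y x => hsL (μ.adW i (κ.W i y) c x) := fun c =>
    ((h.W c).clm h.h4 (hsL ∘L adcL ∘L opL)).congr fun i y x => by
      simp only [ContinuousLinearMap.comp_apply, opL_hsL]; rfl
  have sk : ∀ i y c x, Skew (μ.adW i (κ.W i y) c x) := fun i y c x => adc_skw (h.sk i y c x)
  have mo : Mo D κ.G (fun i y => μ.adW i (κ.W i y)) j :=
    let ⟨S, a, b⟩ := h.F.mix
    ⟨h.h7, ⟨S, fun c d => (a c d).us, b⟩, fun c => (h.F.dv c).us, h.F.bump, u.ra, a0, sk⟩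
  have ok : ∀ i y, Ok (κ.F i y) (μ.adW i (κ.W i y)) := fun i y =>
    ⟨u.tm i y, fun c => cbG h.F i y ((mo.sz c).cb i y), sk i y, fun a x => by
      simp only [Md.adW, ← adcL_apply, ← map_smul, ← map_sum, hp]⟩
  let e := fun i => lp.singleContinuousLinearMap ℝ (fun i => u.Du.H μ.A 0 i) 2 i
  have he : ∀ i a b, ⟪e i a, e i b⟫_ℝ = ⟪a, b⟫_ℝ := fun i a b => by
    simp only [e, lp.singleContinuousLinearMap_apply, lp.inner_single_left, lp.single_apply_self]
  exact Hd34.Fin.finStmt _ J X Y D μ r κ ε j f f' w w' _ h ok hs hw hw'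
    (fun i y a b => (he i _ _).trans (inner_ew0 (u.lc.us.sz.sm i y) (u.μ i y) a b))
    (Eng12.eng I M ι _ _ J X Y D κ.G _ j h.hj h.F h.bA h.eA u.inv a0 sk)
    (a0_bs h.hj mo h.F u ok h.pg he hs) (a0_bs h.hj mo h.F u ok h.pg he hs.symm)

end Crest.Agent.X212.Cys97
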