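import Crest.Agent.X212.Mon62.NkE
import Crest.Agent.X212.Mon62.RE
import Crest.Agent.X212.Cyc79.Ub
import Crest.Agent.X212.Ten12.Sob

/-!
# Row 212, CYC-SM (helper97): the cyclic seeds depend smoothly on the parameter.  DEFINITIONS

`Uw` is the unweighted companion of a (weighted) Banach model.
-/

set_option autoImplicit false
set_option linter.unusedSectionVars false
set_option maxSynthPendingDepth 3
noncomputable section
open scoped Manifold ContDiff Topology InnerProductSpace BoundedContinuousFunction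
open MeasureTheory Set Function Filter

namespace Crest.Agent.X212.Cys97
open An Sob92 Prm93 Wz78 Mon62 Cyc79 Ten12
open Ell97 (UB)
open Nk89 (WtP wm)

variable {E : Type} [NormedAddCommGroup E] [NormedSpace ℝ E] [FiniteDimensional ℝ E]
  [MeasurableSpace E] [BorelSpace E]
  {HM : Type} [TopologicalSpace HM] {I : ModelWithCorners ℝ E HM} [I.Boundaryless]
  {M : Type} [TopologicalSpace M] [ChartedSpace HM M] [IsManifold I ∞ M]
  [MeasurableSpace M] [T2Space M] [BorelSpace M] [SecondCountableTopology M] {ι : Type} [Fintype ι]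
  {lam : Type} [Fintype lam]
  {J : Type} {X Y : J → Type} [∀ i, NormedAddCommGroup (X i)] [∀ i, NormedSpace ℝ (X i)]
  {V : Type} [NormedAddCommGroup V] [InnerProductSpace ℝ V]

/-- `1 + ∇*∇` of the frame `F` and the connection `A` on the scale of `P` -/
def Ql (P : Pre I M ι) (F : Fr I M ι) (A : ι → M → V →L[ℝ] V) (l : ℕ) :
    HT P V (l + 2) →L[ℝ] HT P V l :=
  QQ P F l (fun c => P.mulH l _ _ (A c), fun c => P.mulH (l + 1) _ _ (A c))

/-- the identity or a derivative -/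
def Do {N : Type} [NormedAddCommGroup N] [NormedSpace ℝ N] (P : Pre I M ι) :
    Option ι → (M → N) → M → N
  | none => id
  | some b => P.D b

variable (V) in
/-- `Dm.RB` on all levels -/
def RA (D : Dm I M ι X Y) (G : ∀ i, X i → Fr I M ι) : Prop := ∀ l,
  (∀ i, ∀ x ∈ D.U i, ∀ T ∈ closure (Adm V (D.P i) l), Bijective (QQ (D.P i) (G i x) l T)) ∧
  ∀ R, ∃ K, ∀ i, ∀ x ∈ D.B i, ∀ T ∈ closure (Adm V (D.P i) l), ‖T‖ ≤ R →
    ∀ u, ‖u‖ ≤ K * ‖QQ (D.P i) (G i x) l T u‖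

/-- the same model with other Sobolev frames -/
abbrev chF (D : Dm I M ι X Y) (F : J → Fr I M ι) (C : ℕ → ℝ) (h : ∀ i, (F i).Tame C) :
    Dm I M ι X Y := { D with F := F, C := C, tame := h }

/-- the Sobolev frames are bounded combinations of the geometric frames -/
def Inv (D : Dm I M ι X Y) (G : ∀ i, X i → Fr I M ι) : Prop :=
  ∃ S : ι → ι → ∀ i, Y i → M → ℝ, (∀ a b, D.Sz (S a b)) ∧
    ∀ i y, Mix (G i (D.pt i y)).toPre (D.P i) fun a b => S a b i y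

variable (V) in
/-- unweighted Sobolev frames `F i`: `μ_D = e^{2ψ} μ_F`, `μ_G = e^{2ℓ} μ_F` -/
structure Uw (D : Dm I M ι X Y) (G : ∀ i, X i → Fr I M ι) where
  F : J → Fr I M ι
  C : ℕ → ℝ
  ψ : J → M → ℝ
  ℓ : ∀ i, X i → M → ℝ
  tame : ∀ i, (F i).Tame C
  wt : ∀ i, WtP (F i).toPre (D.P i) (ψ i)
  pos : ∀ i x, 0 ≤ ψ i x
  lc : D.Lc ℓ
  μ : ∀ i y, (G i (D.pt i y)).μ = wm (F i).μ (ℓ i (D.pt i y))
  tm : ∀ i y, ∃ C, (G i (D.pt i y)).Tame C
  tm0 : ∀ i, (G i (D.pt i (D.y₀ i))).Tame C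
  wu : ∃ (U : J → M → ℝ) (c : ℝ), 0 < c ∧ ∀ i, Wu (G i (D.pt i (D.y₀ i))) (U i) ∧
    ∀ x, c * U i x ≤ Real.exp (2 * ψ i x) ∧ c * Real.exp (2 * ψ i x) ≤ U i x
  inv : Inv D G
  ra : RA V D G
  ra0 : RA V (chF D F C tame) G

/-- supports separated by a function which does not depend on the parameter -/
structure SepY (D : Dm I M ι X Y) (j : ℕ) (f f' : ∀ i, Y i → M → ℝ) : Prop where
  l : D.A0 False j f
  r : D.A0 False j f'
  ex : ∃ φ : J → M → ℝ, UB D.P φ ∧ ∀ i y x, (f i y x ≠ 0 → 1 ≤ φ i x) ∧ (f' i y x ≠ 0 → φ i x ≤ 0)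

theorem ra_of_finite [Finite J] {D : Dm I M ι X Y} {G : ∀ i, X i → Fr I M ι}
    (hB : ∀ i, (D.B i).Finite) (h : ∀ i, ∀ x ∈ D.U i, RB1 V (D.P i) (G i x)) : RA V D G :=
  fun l => by
  refine ⟨fun i x hx T hT => ?_, fun R => ?_⟩
  · obtain ⟨K, hK⟩ := h i x hx l ‖T‖
    exact (hK T hT le_rfl).1
  · have := fun i => (hB i).to_subtype
    choose K hK using fun z : Σ i, D.B i => h z.1 z.2 (D.sub _ z.2.2) l R
    obtain ⟨L, hL⟩ := (finite_range K).bddAbove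
    exact ⟨L, fun i x hx T hT hR u => ((hK ⟨i, x, hx⟩ T hT hR).2 u).trans
      (mul_le_mul_of_nonneg_right (hL (mem_range_self _)) (norm_nonneg _))⟩

theorem ra_of_dr [FiniteDimensional ℝ V] {D : Dm I M ι X Y} {G : ∀ i, X i → Fr I M ι} {d : ℕ → ℝ}
    (h : ∀ i, ∀ x ∈ D.U i, Nk89.Dr (G i x) (D.F i) d) : RA V D G := fun l => by
  have h1 := Nk89.res_unif (I := I) (M := M) (ι := ι) (V := V) D.C d l
  refine ⟨fun i x hx T hT => ?_, fun R => ?_⟩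
  · obtain ⟨K, -, hK⟩ := h1 ‖T‖
    exact (hK _ _ (h i x hx) (D.tame i) (Ell97.reg V _) T hT le_rfl).1
  · obtain ⟨K, -, hK⟩ := h1 R
    exact ⟨K, fun i x hx T hT hR =>
      (hK _ _ (h i x (D.sub i hx)) (D.tame i) (Ell97.reg V _) T hT hR).2⟩

/-! ### the leaves -/

variable (I M ι)

/-- CAC: interior estimate `L² → L²₂` for solutions of the homogeneous equation -/
def CacStmt : Prop := ∀ (V J : Type) [NormedAddCommGroup V] [InnerProductSpace ℝ V]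
  [CompleteSpace V] (P F : J → Fr I M ι) (C : ℕ → ℝ) (A : J → ι → M → V →L[ℝ] V)
  (S : ι → ι → J → M → ℝ) (θ θ' : J → M → ℝ) (K : ℝ), (∀ i, (P i).Tame C) →
  (∀ i, Mix (P i).toPre (F i).toPre fun a b => S a b i) →
  (∀ a b, UB (fun i => (P i).toPre) (S a b)) →
  (∀ a, UB (fun i => (P i).toPre) fun i => (F i).dv a) →
  (∀ a, UB (fun i => (P i).toPre) fun i => A i a) →
  UB (fun i => (P i).toPre) θ → UB (fun i => (P i).toPre) θ' →
  (∀ i, ∀ x ∈ tsupport (θ i), θ' i x = 1) →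
  (∀ i u, ‖u‖ ≤ K * ‖Ql (P i).toPre (F i) (A i) 0 u‖) →
  ∃ Γ : ∀ i, HT (P i).toPre V 0 →L[ℝ] HT (P i).toPre V 2, Bv Γ ∧ ∀ i x,
    smulH (P i).toPre 0 _ (θ' i) (Ql (P i).toPre (F i) (A i) 0 x) = 0 →
    Γ i (smulH (P i).toPre 0 _ (θ' i) (ic (P i).toPre V 2 0 x)) =
      smulH (P i).toPre 2 _ (fun z => θ i z * θ i z) x

/-- EV: an `L²` coefficient times a bounded kernel is a Hilbert-Schmidt operator -/
def EvStmt : Prop := ∀ (κ κ' U K : Type) [Fintype κ] [DecidableEq κ] [Fintype κ'] [DecidableEq κ']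
  [NormedAddCommGroup U] [InnerProductSpace ℝ U] [CompleteSpace U]
  [NormedAddCommGroup K] [InnerProductSpace ℝ K] [CompleteSpace K]
  (P : Fr I M ι) (β : U →L[ℝ] Eu κ →L[ℝ] Eu κ'),
  ∃ e : HT P.toPre U 0 →L[ℝ] (K →L[ℝ] (M →ᵇ Eu κ)) →L[ℝ] HT P.toPre (Fm κ' K) 0,
    ‖e‖ ≤ √(Fintype.card κ) * ‖β‖ ∧ ∀ a Λ h α, Is P.toPre 0 _ a α →
      Is P.toPre 0 _ (ctH κ' K P.toPre 0 h (e a Λ)) fun z => β (α z) (Λ h z)

/-- DN: the Laplacians of a family in the Sobolev frames -/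
def DnStmt : Prop := ∀ (κ J : Type) [Fintype κ] [DecidableEq κ] (X Y : J → Type)
  [∀ i, NormedAddCommGroup (X i)] [∀ i, NormedSpace ℝ (X i)] (D : Dm I M ι X Y)
  (G : ∀ i, X i → Fr I M ι) (A : ∀ i, Y i → ι → M → En κ) (j : ℕ), 8 ≤ j → D.FF G →
  (∀ c, D.A0 False j fun i y x => hsL (A i y c x)) →
  ∃ c : Option ι × Option ι → ∀ i, Y i → M → HS κ, (∀ s, D.A0 False 4 (c s)) ∧
    ∀ i y (u : M → Eu κ), Sm I u → ∀ x,
      lap I (G i (D.pt i y)).e (G i (D.pt i y)).dv (A i y) u x =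
        ∑ s, opL (c s i y x) (Do (D.P i) s.1 (Do (D.P i) s.2 u) x)

/-- ENG: the engine on the Hilbert fibre -/
def EngStmt : Prop := ∀ (κ K J : Type) [Fintype κ] [DecidableEq κ]
  [NormedAddCommGroup K] [InnerProductSpace ℝ K] [CompleteSpace K] (X Y : J → Type)
  [∀ i, NormedAddCommGroup (X i)] [∀ i, NormedSpace ℝ (X i)] (D : Dm I M ι X Y)
  (G : ∀ i, X i → Fr I M ι) (A : ∀ i, Y i → ι → M → En κ) (j : ℕ), 8 ≤ j → D.FF G →
  D.RB (Eu κ) G → D.RE (Eu κ) G → Inv D G → (∀ c, D.A0 False j fun i y x => hsL (A i y c x)) →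
  (∀ i y c x, Skew (A i y c x)) → D.Eng G j fun i y => aA K (A i y)

variable (lam) in
/-- FIN: the seed from the two transported base fields -/
def FinStmt : Prop := ∀ (K J : Type) [NormedAddCommGroup K] [InnerProductSpace ℝ K]
  [CompleteSpace K] (X Y : J → Type) [∀ i, NormedAddCommGroup (X i)] [∀ i, NormedSpace ℝ (X i)]
  (D : Dm I M ι X Y) (μ : MF M ι lam J) (r : ℕ) (κ : CF D μ r) (ε : Prop) (j : ℕ)
  (f f' : ∀ i, Y i → M → ℝ) (w w' : ∀ i, Y i → List (La M))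
  (U : ∀ i y, KK (κ.F i y).toPre (Fin μ.N × Fin μ.N) →L[ℝ] K), κ.OK ε j →
  (∀ i y, Ok (κ.F i y) (μ.adW i (κ.W i y))) → SepY D j f f' → Fa (D.LaY j) w → Fa (D.LaY j) w' →
  (∀ i y h h', ⟪U i y h, U i y h'⟫_ℝ = ⟪h, h'⟫_ℝ) →
  (D.Eng κ.G j fun i y => aA K (μ.adW i (κ.W i y))) →
  (D.A0 False j (V := Fm (Fin μ.N × Fin μ.N) K) fun i y z =>
    fb (U i y) (bs (κ.F i y) (μ.adW i (κ.W i y)) (μ.pg i) (f i y) (f' i y) z)) →
  (D.A0 False j (V := Fm (Fin μ.N × Fin μ.N) K) fun i y z =>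
    fb (U i y) (bs (κ.F i y) (μ.adW i (κ.W i y)) (μ.pg i) (f' i y) (f i y) z)) →
  κ.SedS j fun i y => (⟨f i y, f' i y, w i y, w' i y⟩ : Cy M).sed (κ.F i y)

variable (lam) in
/-- **CYC-SM** -/
def SmStmt : Prop := ∀ (J : Type) (X Y : J → Type) [∀ i, NormedAddCommGroup (X i)]
  [∀ i, NormedSpace ℝ (X i)] (D : Dm I M ι X Y) (μ : MF M ι lam J) (r : ℕ) (κ : CF D μ r)
  (ε : Prop) (j : ℕ) (f f' : ∀ i, Y i → M → ℝ) (w w' : ∀ i, Y i → List (La M)), κ.OK ε j →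
  Nonempty (Uw μ.A D κ.G) → (∀ i y a x, ∑ b, (κ.F i y).P a b x • κ.W i y b x = κ.W i y a x) →
  SepY D j f f' → Fa (D.LaY j) w → Fa (D.LaY j) w' →
  κ.SedS j fun i y => (⟨f i y, f' i y, w i y, w' i y⟩ : Cy M).sed (κ.F i y)

end Crest.Agent.X212.Cys97
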