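import Crest.Agent.X212.Cys97.Lo

/-!
# Row 212, CYC-SM (helper97): families of resolvents on all levels; smoothing chains
-/

set_option autoImplicit false
set_option linter.unusedSectionVars false
set_option maxSynthPendingDepth 3
noncomputable section
open scoped Manifold ContDiff Topology InnerProductSpace BoundedContinuousFunction
open MeasureTheory Set Function Filter

namespace Crest.Agent.X212.Cys97
open An Sob92 Prm93 Wz78 Mon62 Cyc79 Ten12 Dm
open Ell97 (UB)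
open Nk89 (WtP wm)

variable {E : Type} [NormedAddCommGroup E] [NormedSpace ℝ E] [FiniteDimensional ℝ E]
  [MeasurableSpace E] [BorelSpace E]
  {HM : Type} [TopologicalSpace HM] {I : ModelWithCorners ℝ E HM} [I.Boundaryless]
  {M : Type} [TopologicalSpace M] [ChartedSpace HM M] [IsManifold I ∞ M]
  [MeasurableSpace M] [T2Space M] [BorelSpace M] [SecondCountableTopology M] {ι : Type} [Fintype ι]
  {J : Type} {X Y : J → Type} [∀ i, NormedAddCommGroup (X i)] [∀ i, NormedSpace ℝ (X i)]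
  {κ : Type} [Fintype κ] [DecidableEq κ]
  {U V W : Type} [NormedAddCommGroup U] [InnerProductSpace ℝ U] [CompleteSpace U]
  [NormedAddCommGroup V] [InnerProductSpace ℝ V] [CompleteSpace V]
  [NormedAddCommGroup W] [InnerProductSpace ℝ W] [CompleteSpace W]
  {K : Type} [NormedAddCommGroup K] [InnerProductSpace ℝ K] [CompleteSpace K]
  {D : Dm I M ι X Y} {G : ∀ i, X i → Fr I M ι} {A : ∀ i, Y i → ι → M → En κ} {j l : ℕ} {ε : Prop}

/-! ### functions -/

section fn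
variable {F : Fr I M ι} {A : ι → M → V →L[ℝ] V} {u v : M → V} {θ θ' φ : M → ℝ} {s t : ℝ}

theorem q_smul (hA : ∀ a, Sm I (A a)) (hθ : Sm I θ) (hu : Sm I u) (z : M) :
    θ z • u z + lap I F.e F.dv A (fun y => θ y • u y) z =
      θ z • (u z + lap I F.e F.dv A u z) + F.op (cmS F V θ) (cmB F A θ) u z := by
  have e : ∀ w : M → V, Wrd81.lap1 F A w z = w z + lap I F.e F.dv A w z := fun _ =>
    sub_eq_add_neg _ _
  simpa only [e] using lap1_cm (F := F) hA hθ hu z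

theorem q_loc (hφ : Continuous φ) (hst : s < t) (h0 : ∀ z, φ z < t → θ z = 0)
    (h1 : ∀ z, s < φ z → θ' z = 1) (z : M) :
    θ z • (θ' z • u z + lap I F.e F.dv A (fun y => θ' y • u y) z) =
      θ z • (u z + lap I F.e F.dv A u z) := by
  rcases lt_or_ge s (φ z) with h | h
  · have e : (fun y => θ' y • u y) =ᶠ[𝓝 z] u := by
      filter_upwards [(isOpen_lt continuous_const hφ).mem_nhds h] with y hy
      rw [h1 y hy, one_smul]
    rw [Eqv71.lap_congr e, h1 z h, one_smul]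
  · simp only [h0 z (h.trans_lt hst), zero_smul]

theorem q_sub (hA : ∀ a, Sm I (A a)) (hu : Sm I u) (hv : Sm I v) (z : M) :
    (u z - v z) + lap I F.e F.dv A (fun y => u y - v y) z =
      (u z + lap I F.e F.dv A u z) - (v z + lap I F.e F.dv A v z) := by
  have := Mp86.lap_add (F := F) hA (hu.sub hv) hv z
  simp only [sub_add_cancel] at this
  rw [this]; abel

end fn

theorem exists_ucut {P : J → Pre I M ι} {φ : J → M → ℝ} (hφ : UB P φ) {s t : ℝ} (hst : s < t) :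
    ∃ χ : J → M → ℝ, UB P χ ∧ (∀ i z, φ i z ≤ s → χ i z = 0) ∧ (∀ i z, t ≤ φ i z → χ i z = 1) ∧
      ∀ i z, |χ i z| ≤ 1 :=
  have h := sub_pos.2 hst
  ⟨fun i => cf (t - s)⁻¹ s (φ i), ub_comp (h := fun r => Real.smoothTransition ((t - s)⁻¹ * (r - s)))
    (Real.smoothTransition.contDiff.comp (contDiff_const.mul (contDiff_id.sub contDiff_const))) hφ,
    fun _ _ => cf_zero (by positivity), fun _ _ e => cf_one (by
      rw [inv_mul_eq_div, one_le_div h]; linarith), fun _ => cf_abs _ _⟩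

/-- continuous representatives -/
def valB {P : Pre I M ι} {S : ℝ} (hS : Sup P S) : HT P V 4 →L[ℝ] (M →ᵇ V) :=
  LinearMap.mkContinuous
    { toFun := fun h => BoundedContinuousFunction.ofNormedAddCommGroup (P.val 4 _ h)
        (continuous_val hS le_rfl h) _ (norm_val_le hS le_rfl h)
      map_add' := fun a b => BoundedContinuousFunction.ext (congrFun (val_add a b))
      map_smul' := fun a b => BoundedContinuousFunction.ext (congrFun (val_smul a b)) } √|S|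
    fun h => (BoundedContinuousFunction.norm_le (by positivity)).2 (norm_val_le hS le_rfl h)

theorem bv_valB : Bv fun i => (valB (D.sup i) : D.H V 4 i →L[ℝ] _) :=
  ⟨_, fun _ => LinearMap.mkContinuous_norm_le _ (Real.sqrt_nonneg _) _⟩

theorem bv_smulH {f : J → M → ℝ} (hf : UB D.P f) (k : ℕ) :
    Bv fun i => smulH (D.P i) k (triv M V) (f i) := Dm.UC.bv ((US.fixed hf).smulH k)

/-- multipliers on all levels -/
theorem mult0 (β : U →L[ℝ] V →L[ℝ] W) (hj : 7 ≤ j) (hlj : l ≤ j) {a : ∀ i, Y i → M → U}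
    (h : D.A0 ε j a) : ∃ T : ∀ i, X i → D.H V l i →L[ℝ] D.H W l i, UC D.toRg T ∧
      ∀ i y, T i (D.pt i y) = (D.P i).mulH l _ _ fun x => β (a i y x) := by
  obtain ⟨b, δ, h1, -, h3, h4⟩ := h.ex
  have m1 := h1.clm β
  have hL := Lev.left hj hlj
  refine ⟨_, (UC.const (bv_mulH m1 l)).add (h3.clm (bv_bilH hL β)), fun i y => ?_⟩
  ext u
  have hu : Is (D.P i) l _ u ((D.P i).toL2 l _ u) := EventuallyEq.rfl
  refine ((hu.mulH (m1.cb i) (Maps.triv _)).add ((Is.val (D.sup i) (by omega) _).bilH (D.sup i) hL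
    (Cb_const β) (Maps₂.triv _) hu)).unique (is_eq' (hu.mulH (Cb_clm β (h.sz.cb i y))
      (Maps.triv _)) fun z => ?_)
  simp only [h4, map_add, add_apply, Pi.add_apply]

variable (D G A) in
/-- a family of frames and connections whose resolvents act on all levels -/
structure Mo (j : ℕ) : Prop where
  hj : 7 ≤ j
  mix : ∃ S : ι → ι → ∀ i, X i → M → ℝ, (∀ a b, D.US (S a b)) ∧
    ∀ i, ∀ x ∈ D.U i, Mix (D.P i) (G i x).toPre fun a b => S a b i x
  dv : ∀ a, D.US fun i x => (G i x).dv a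
  bump : ∀ i y, Mp86.Bumps I (G i (D.pt i y)).e (G i (D.pt i y)).dv
  ra : RA (Eu κ) D G
  a0 : ∀ c, D.A0 False j fun i y x => hsL (A i y c x)
  sk : ∀ i y c x, Skew (A i y c x)

namespace Mo
variable (h : Mo D G A j)
include h

theorem sz (c : ι) : D.Sz fun i y => A i y c :=
  ((h.a0 c).sz.clm opL).congr fun _ _ _ => (opL_hsL _).symm

theorem ac (i : J) (y : Y i) : Ac (D.F i) (G i (D.pt i y)) (A i y) :=
  let ⟨_, a, b⟩ := h.mix
  ⟨⟨_, D.sup i⟩, ⟨_, b i _ (D.mem i y), fun c d => (a c d).cb i _ (D.mem i y)⟩,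
    fun c => (h.dv c).cb i _ (D.mem i y), fun c => (h.sz c).cb i y⟩

theorem adm (i : J) (y : Y i) (l : ℕ) : ((fun c => (D.P i).mulH l _ _ (A i y c),
    fun c => (D.P i).mulH (l + 1) _ _ (A i y c)) : Mu (D.P i) (Eu κ) l) ∈ Adm (Eu κ) (D.P i) l :=
  ⟨A i y, (h.ac i y).sm, h.sk i y, fun c => rep_mulH ((h.ac i y).cb c) (Maps.triv _),
    fun c => rep_mulH ((h.ac i y).cb c) (Maps.triv _)⟩

theorem bij (i : J) (y : Y i) (l : ℕ) : Bijective (Ql (D.P i) (G i (D.pt i y)) (A i y) l) :=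
  (h.ra l).1 i _ (D.mem i y) _ (subset_closure (h.adm i y l))

theorem res (i : J) (y : Y i) {s : M → Eu κ} (hs : Al (D.F i) s) :
    (G i (D.pt i y)).IsRes (A i y) s ((G i (D.pt i y)).res (A i y) s) ∧
      Al (D.F i) ((G i (D.pt i y)).res (A i y) s) :=
  (h.ac i y).res (h.bij i y) (h.bump i y) (h.sk i y) hs

theorem mul (hl : l ≤ j) : ∃ T : ι → ∀ i, X i → D.H (Eu κ) l i →L[ℝ] D.H (Eu κ) l i,
    (∀ c, UC D.toRg (T c)) ∧ ∀ c i y, T c i (D.pt i y) = (D.P i).mulH l _ _ (A i y c) := by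
  choose T a b using fun c => mult0 opL h.hj hl (h.a0 c)
  exact ⟨T, a, fun c i y => by simp only [b, opL_hsL]⟩

theorem uc_Nb {T : ∀ i, X i → D.H V l i →L[ℝ] D.H V l i} (hT : UC D.toRg T) (c : ι) :
    UC D.toRg fun i x => Nb (D.P i) (G i x) l (T i x) c := by
  obtain ⟨S, s1, s2⟩ := h.mix
  exact ((UC.sum fun b => ((s1 c b).smulH l).comp (UC.const (bv_DH l b))).congr fun i x hx =>
    Dt_eq (s2 i x hx) (fun a b => (s1 a b).cb i x hx) l c).add
      (hT.comp (UC.const (bv_ic l.le_succ)))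

/-- the resolvents -/
theorem exists_R (hl : l + 1 ≤ j) :
    ∃ R : ∀ i, X i → D.H (Eu κ) l i →L[ℝ] D.H (Eu κ) (l + 2) i, UC D.toRg R ∧
      ∀ i y f, Ql (D.P i) (G i (D.pt i y)) (A i y) l (R i (D.pt i y) f) = f := by
  obtain ⟨T₁, a1, a2⟩ := h.mul (l.le_succ.trans hl)
  obtain ⟨T₂, b1, b2⟩ := h.mul hl
  let T : ∀ i, X i → Mu (D.P i) (Eu κ) l := fun i x => (fun c => T₁ c i x, fun c => T₂ c i x)
  have hT : ∀ i y, T i (D.pt i y) = (fun c => (D.P i).mulH l _ _ (A i y c),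
      fun c => (D.P i).mulH (l + 1) _ _ (A i y c)) := fun i y => by simp only [T, a2, b2]
  have hc : ∀ i, ∀ x ∈ D.U i, T i x ∈ closure (Adm (Eu κ) (D.P i) l) := fun i x hx => by
    have c1 : ContinuousAt (T i) x :=
      (continuousAt_pi.2 fun c => ((a1 c).sm.diff hx).continuousAt).prodMk
        (continuousAt_pi.2 fun c => ((b1 c).sm.diff hx).continuousAt)
    refine c1.continuousWithinAt.mem_closure (D.dns i hx) ?_
    rintro _ ⟨y, rfl⟩
    exact hT i y ▸ h.adm i y l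
  have hi : ∀ i, ∀ x ∈ D.U i, (QQ (D.P i) (G i x) l (T i x)).IsInvertible := fun i x hx =>
    isInvertible_of_bij ((h.ra l).1 i x hx _ (hc i x hx))
  have hb : ∃ R, ∀ i, ∀ x ∈ D.B i, ‖T i x‖ ≤ R := by
    choose K₁ n1 k1 using fun c => (a1 c).bd0.nn
    choose K₂ n2 k2 using fun c => (b1 c).bd0.nn
    have p1 := Finset.sum_nonneg fun c (_ : c ∈ Finset.univ) => n1 c
    have p2 := Finset.sum_nonneg fun c (_ : c ∈ Finset.univ) => n2 c
    refine ⟨∑ c, K₁ c + ∑ c, K₂ c, fun i x hx => max_le ?_ ?_⟩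
    · exact (pi_norm_le_iff_of_nonneg (by positivity)).2 fun c => (k1 c i x hx).trans
        ((Finset.single_le_sum (fun c _ => n1 c) (Finset.mem_univ c)).trans (by linarith))
    · exact (pi_norm_le_iff_of_nonneg (by positivity)).2 fun c => (k2 c i x hx).trans
        ((Finset.single_le_sum (fun c _ => n2 c) (Finset.mem_univ c)).trans (by linarith))
  obtain ⟨R, hR⟩ := hb
  obtain ⟨K, hK⟩ := (h.ra l).2 R
  have hQ : UC D.toRg fun i x => QQ (D.P i) (G i x) l (T i x) :=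
    (UC.const (bv_ic (by omega))).sub (UC.sum fun c => ((h.uc_Nb (a1 c) c).add
      (((h.dv c).smulH l).comp (UC.const (bv_ic l.le_succ)))).comp (h.uc_Nb (b1 c) c))
  refine ⟨_, hQ.inverse hi ⟨|K|, fun i x hx =>
    norm_inverse_le (hi i x (D.sub i hx)) (abs_nonneg K) fun u =>
      (hK i x hx _ (hc i x (D.sub i hx)) (hR i x hx) u).trans
        (mul_le_mul_of_nonneg_right (le_abs_self K) (norm_nonneg _))⟩, fun i y f => ?_⟩
  rw [Ql, ← hT, apply_inverse (hi i _ (D.mem i y))]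

/-- the commutators -/
theorem exists_cm (hl : l ≤ j) {θ : J → M → ℝ} (hθ : UB D.P θ) :
    ∃ C : ∀ i, X i → D.H (Eu κ) (l + 1) i →L[ℝ] D.H (Eu κ) l i, UC D.toRg C ∧
      ∀ i y x (u : M → Eu κ), Sm I u → Is (D.P i) (l + 1) _ x u → Is (D.P i) l _ (C i (D.pt i y) x)
        ((G i (D.pt i y)).op (cmS (G i (D.pt i y)) _ (θ i)) (cmB (G i (D.pt i y)) (A i y) (θ i)) u) := by
  obtain ⟨T, a1, a2⟩ := h.mul hl
  obtain ⟨S, s1, s2⟩ := h.mix
  let m : ∀ k, ι → ∀ i, X i → D.H (Eu κ) k i →L[ℝ] D.H (Eu κ) k i := fun k c i x =>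
    ∑ b, smulH (D.P i) k _ (S c b i x) ∘L smulH (D.P i) k _ ((D.P i).D b (θ i))
  have m1 : ∀ k c, UC D.toRg (m k c) := fun k c =>
    UC.sum fun b => ((s1 c b).smulH k).comp (UC.const (bv_smulH (hθ.D b) k))
  have m2 : ∀ k c i y x u, Is (D.P i) k _ x u → Is (D.P i) k _ (m k c i (D.pt i y) x)
      fun z => (G i (D.pt i y)).D c (θ i) z • u z := fun k c i y x u hx => by
    simp only [m, _root_.sum_apply, (s2 i _ (D.mem i y)).D, Finset.sum_smul, smul_assoc]
    exact is_sum _ fun b _ => (hx.smulH ((hθ.D b).cb i)).smulH ((s1 c b).cb i _ (D.mem i y))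
  refine ⟨_, (UC.sum fun c => ((m1 l c).comp (h.uc_Nb (a1 c) c)).add (((h.uc_Nb (a1 c) c).add
    (((h.dv c).smulH l).comp (UC.const (bv_ic l.le_succ)))).comp (m1 (l + 1) c))).neg,
    fun i y x u hu hx => ?_⟩
  have a := h.ac i y
  simp only [neg_apply, _root_.sum_apply, a2]
  exact is_eq' (is_neg (is_sum _ fun c _ => (m2 _ c i y _ _ (a.is_Nb hx hu c)).add
    ((a.is_Nb (m2 _ c i y _ _ hx) (((G i _).sm_D (hθ.sm i) c).smul hu) c).add
      (((m2 _ c i y _ _ hx).incl l.le_succ).smulH (a.dv c))))) (cm_eq a.sm (hθ.sm i) hu)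

/-- freezing at the base points -/
theorem frz {k : ℕ} (hk : 7 ≤ k) :
    Mo D (fun i _ => G i (D.pt i (D.y₀ i))) (fun i _ => A i (D.y₀ i)) k :=
  let ⟨S, s1, s2⟩ := h.mix
  ⟨hk, ⟨fun a b i _ => S a b i (D.pt i (D.y₀ i)), fun a b => US.fixed (s1 a b).sz.ub,
    fun i _ _ => s2 i _ (D.mem i _)⟩, fun a => US.fixed (h.dv a).sz.ub, fun i _ => h.bump i _,
    fun l => ⟨fun i _ _ => (h.ra l).1 i _ (D.mem i _), fun R =>
      let ⟨K, hK⟩ := (h.ra l).2 R; ⟨K, fun i _ _ => hK i _ (D.base i)⟩⟩,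
    fun c => A0.fixed (h.a0 c).sz.ub, fun i _ => h.sk i _⟩

end Mo

/-! ### change of the weight -/

namespace Uw
variable {N : Type} [NormedAddCommGroup N] [NormedSpace ℝ N] (u : Uw V D G)

/-- the unweighted model -/
abbrev Du : Dm I M ι X Y := chF D u.F u.C u.tame

theorem ub {f : J → M → N} : UB u.Du.P f ↔ UB D.P f :=
  exists_congr fun _ => forall_congr' fun i => (u.wt i).CBs.symm

theorem us {f : ∀ i, X i → M → N} (h : D.US f) : u.Du.US f := by
  refine ⟨fun i x hx => (u.wt i).Cb.1 (h.cb i x hx), fun k => ?_⟩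
  let L : ∀ i, B (D.P i) k N →L[ℝ] B (u.Du.P i) k N := fun i => LinearMap.mkContinuous
    { toFun := fun f => B.mk k (B.fn f) ((u.wt i).Cb.1 f.cb)
      map_add' := fun _ _ => rfl
      map_smul' := fun _ _ => rfl } 1 fun f => by
        rw [one_mul]; exact (B.norm_le (norm_nonneg _)).2 ((u.wt i).CB.1 f.CB)
  exact ((h.uc k).clm (L := L) ⟨1, fun _ => LinearMap.mkContinuous_norm_le _ zero_le_one _⟩).congr
    fun i x hx => (eq_toB (F := u.Du.P i) (fn_toB (F := D.P i) (h.cb i x hx))).symm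

theorem bv_jj (l : ℕ) : Bv fun i => jj W (u.F i) (D.F i) l :=
  ⟨1, fun i => (rep_jj (u.wt i) (u.pos i) l).2⟩

theorem a0 {w : ∀ i, Y i → M → W} (hj : 4 ≤ j) (h : D.A0 ε j w) : u.Du.A0 ε j w := by
  obtain ⟨b, δ, h1, h2, h3, h4⟩ := h.ex
  refine ⟨⟨fun i y => (u.wt i).Cb.1 (h.sz.cb i y), u.ub.2 h.sz.ub⟩, b, _, u.ub.2 h1, h2,
    h3.clm (u.bv_jj j), fun i y x => (h4 i y x).trans (congrArg _ (congrFun ?_ x))⟩
  exact (((is_jj (u.wt i) (u.pos i)).2 (Is.val (D.sup i) hj _)).val_eq (u.Du.sup i) hj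
    (continuous_val (D.sup i) hj _)).symm

end Uw

theorem Mo.uw (h : Mo D G A j) (u : Uw (Eu κ) D G) : Mo u.Du G A j :=
  let ⟨S, s1, s2⟩ := h.mix
  ⟨h.hj, ⟨S, fun a b => u.us (s1 a b), fun i x hx a z => (s2 i x hx a z).trans (by
    simp only [(u.wt i).e])⟩, fun a => u.us (h.dv a), h.bump, u.ra0,
    fun c => u.a0 (h.hj.trans' (by omega)) (h.a0 c), h.sk⟩

/-! ### smoothing chains -/

variable (D G A) in
/-- the solution with the source `g s` -/
def uu (g : ∀ i, Y i → M → HS κ) (i : J) (y : Y i) (s : M → Eu κ) : M → Eu κ :=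
  (G i (D.pt i y)).res (A i y) fun z => opL (g i y z) (s z)

variable (D G A) in
/-- `T` is the operator `θ G g` -/
def Ch (g : ∀ i, Y i → M → HS κ) (π : ∀ i, K →L[ℝ] D.H (Eu κ) 0 i) (θ : J → M → ℝ) (k : ℕ) : Prop :=
  ∃ T : ∀ i, X i → K →L[ℝ] D.H (Eu κ) k i, UC D.toRg T ∧ ∀ i y k' (s : Sec I (triv M (Eu κ))),
    π i k' = (D.P i).toH 0 _ s →
      Is (D.P i) k _ (T i (D.pt i y) k') fun z => θ i z • uu D G A g i y s.1 z

namespace Mo
variable (h : Mo D G A j) {g : ∀ i, Y i → M → HS κ} (hg : D.A0 False j g)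
  {π : ∀ i, K →L[ℝ] D.H (Eu κ) 0 i} (hπ : Bv π) {φ θ : J → M → ℝ}
include h hg

theorem res_uu (i : J) (y : Y i) (s : Sec I (triv M (Eu κ))) :
    (G i (D.pt i y)).IsRes (A i y) (fun z => opL (g i y z) (s.1 z)) (uu D G A g i y s.1) ∧
      Al (D.F i) (uu D G A g i y s.1) := h.res i y ((al_sec s).app (Cb_clm opL (hg.sz.cb i y)))

include hπ

theorem ch0 (hθ : UB D.P θ) : Ch D G A g π θ 2 := by
  obtain ⟨R, r1, r2⟩ := h.exists_R (l := 0) (h.hj.trans' (by omega))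
  obtain ⟨T, t1, t2⟩ := mult0 opL h.hj j.zero_le hg
  refine ⟨_, (UC.const (bv_smulH hθ 2)).comp (r1.comp (t1.comp (UC.const hπ))),
    fun i y k s e => ?_⟩
  obtain ⟨a, b⟩ := h.res_uu hg i y s
  simp only [ContinuousLinearMap.comp_apply]
  refine Is.smulH (hθ.cb i) ((h.ac i y).is_of_Q (h.bij i y 0).1 b ?_)
  simp only [r2, t2, e, a.2.2]
  exact (Is.toH s).mulH (Cb_clm opL (hg.sz.cb i y)) (Maps.triv _)

theorem ch (hφ : UB D.P φ) (h0 : ∀ i y z, g i y z ≠ 0 → φ i z ≤ 0) (k : ℕ) (hk : k + 1 ≤ j) :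
    ∀ {θ : J → M → ℝ} {t : ℝ}, 0 < t → UB D.P θ → (∀ i z, φ i z < t → θ i z = 0) →
      Ch D G A g π θ (k + 2) := by
  induction k with
  | zero => exact fun _ hθ _ => h.ch0 hg hπ hθ
  | succ k ih =>
    intro θ t ht hθ e0
    obtain ⟨χ, c1, c2, c3, -⟩ := exists_ucut hφ (show t / 3 < t / 2 by linarith)
    obtain ⟨T, t1, t2⟩ := ih (by omega) (show 0 < t / 3 by linarith) c1 fun i z e => c2 i z e.le
    obtain ⟨R, r1, r2⟩ := h.exists_R hk
    obtain ⟨C, d1, d2⟩ := h.exists_cm (l := k + 1) (by omega) hθ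
    refine ⟨_, r1.comp (d1.comp t1), fun i y k' s e => ?_⟩
    obtain ⟨a, b⟩ := h.res_uu hg i y s
    refine (h.ac i y).is_of_Q (h.bij i y _).1 (b.smul (hθ.cb i)) ?_
    simp only [ContinuousLinearMap.comp_apply, r2]
    refine is_eq' (d2 i y _ _ (Wrd81.sm_smul (c1.sm i) b.1) (t2 i y k' s e)) fun z => ?_
    rw [q_smul (h.ac i y).sm (hθ.sm i) b.1, cm_cut (hφ.sm i).continuous (half_lt_self ht) (e0 i)
      fun z e => c3 i z e.le, a.2.2, add_eq_right]
    by_cases e1 : g i y z = 0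
    · simp [e1]
    · rw [e0 i z ((h0 i y z e1).trans_lt ht), zero_smul]

/-- bounds of the base fields -/
theorem ub_base (hφ : UB D.P φ) (h0 : ∀ i y z, g i y z ≠ 0 → φ i z ≤ 0) {t : ℝ} (ht : 0 < t)
    (hθ : UB D.P θ) (e0 : ∀ i z, φ i z < t → θ i z = 0)
    (hd : ∀ i, Dense {k | ∃ s, π i k = (D.P i).toH 0 _ s}) {b : J → M → Fm κ K}
    (hb : ∀ i, Sm I (b i)) (e : ∀ i k (s : Sec I (triv M (Eu κ))), π i k = (D.P i).toH 0 _ s →
      ∀ z, ct k (b i z) = θ i z • uu D G A g i (D.y₀ i) s.1 z) : UB D.P b := by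
  choose T t1 t2 using fun n => (h.frz (k := n + 7) (by omega)).ch (A0.fixed hg.sz.ub) hπ hφ
    (fun i _ => h0 i _) (n + 2) (by omega) ht hθ e0
  choose L l0 hL using fun n => (Dm.UC.bv (t1 n)).nn
  refine ⟨fun n => √(Fintype.card κ) * (√|D.C 0| * L n), fun i => ⟨hb i, fun n w hw z =>
    norm_dense (hd i) (by have := l0 n; positivity) fun k ⟨s, hs⟩ => ?_⟩⟩
  have e1 := (t2 n i (D.y₀ i) k s hs).val_eq (D.sup i) (by omega)
    ((hθ.sm i).smul (Mp86.sm_res _ _ _)).continuous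
  rw [← congrFun (Cyc79.Dw_clm (D.P i) (ct k) w (hb i)) z, funext (e i k s hs), mul_assoc]
  refine (e1 ▸ CB_val (D.sup i) n le_rfl _ w hw z :).trans ?_
  exact mul_le_mul_of_nonneg_left (ContinuousLinearMap.le_of_opNorm_le _ (hL n i) _)
    (Real.sqrt_nonneg _)

end Mo

end Crest.Agent.X212.Cys97
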