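import Crest.Agent.X212.Cys97.Ker

/-!
# Row 212, CYC-SM (helper97): the variation of the base field lies in the weighted spaces
-/

set_option autoImplicit false
set_option linter.unusedSectionVars false
set_option maxSynthPendingDepth 3
noncomputable section
open scoped Manifold ContDiff Topology InnerProductSpace BoundedContinuousFunction
open MeasureTheory Set Function Filter

namespace Crest.Agent.X212.Cys97
open An Sob92 Prm93 Wz78 Mon62 Cyc79 Ten12 Dm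
open Ell97 (UB)
open Nk89 (WtP wm)

variable {E : Type} [NormedAddCommGroup E] [NormedSpace ℝ E] [FiniteDimensional ℝ E]
  [MeasurableSpace E] [BorelSpace E]
  {HM : Type} [TopologicalSpace HM] {I : ModelWithCorners ℝ E HM} [I.Boundaryless]
  {M : Type} [TopologicalSpace M] [ChartedSpace HM M] [IsManifold I ∞ M]
  [MeasurableSpace M] [T2Space M] [BorelSpace M] [SecondCountableTopology M] {ι : Type} [Fintype ι]
  {κ : Type} [Fintype κ] [DecidableEq κ]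
  {V : Type} [NormedAddCommGroup V] [InnerProductSpace ℝ V] [CompleteSpace V]
  {K : Type} [NormedAddCommGroup K] [InnerProductSpace ℝ K] [CompleteSpace K]

section one
variable {P P₀ : Fr I M ι} {u v : M → V} {l : ℕ} {ψ : M → ℝ}

variable (V) in
/-- the inclusion or a derivative -/
def DoH (P : Pre I M ι) (l : ℕ) : Option ι → HT P V (l + 1) →L[ℝ] HT P V l
  | none => ic P V (l + 1) l
  | some b => DH P l _ b

theorem sm_Do (P : Pre I M ι) (hu : Sm I u) : ∀ a, Sm I (Do P a u)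
  | none => hu
  | some a => P.sm_D hu a

theorem is_DoH {x : HT P.toPre V (l + 1)} (hx : Is P.toPre (l + 1) _ x u) (hu : Sm I u) :
    ∀ a, Is P.toPre l _ (DoH V P.toPre l a x) (Do P.toPre a u)
  | none => hx.incl l.le_succ
  | some a => hx.DH hu a

theorem do_wt (h : WtP P₀.toPre P.toPre ψ) : ∀ a (u : M → V), Do P.toPre a u = Do P₀.toPre a u
  | none, _ => rfl
  | some a, u => h.D a u

theorem do_congr {P : Pre I M ι} {z : M} (h : u =ᶠ[𝓝 z] v) : ∀ a, Do P a u =ᶠ[𝓝 z] Do P a v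
  | none => h
  | some _ => h.eventuallyEq_nhds.mono fun _ hy => dv_congr hy

end one

variable {J : Type} {X Y : J → Type} [∀ i, NormedAddCommGroup (X i)] [∀ i, NormedSpace ℝ (X i)]
  {D : Dm I M ι X Y} {G : ∀ i, X i → Fr I M ι} {A : ∀ i, Y i → ι → M → En κ} {j : ℕ}

theorem bv_DoH (l : ℕ) : ∀ a, Bv fun i => DoH V (D.P i) l a
  | none => bv_ic l.le_succ
  | some a => bv_DH l a

theorem uc_fbH {Z : J → Type} [∀ i, NormedAddCommGroup (Z i)] [∀ i, InnerProductSpace ℝ (Z i)]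
    [∀ i, CompleteSpace (Z i)] {l : ℕ} {S : ∀ i, X i → K →L[ℝ] Z i}
    {δ : ∀ i, X i → D.H (Fm κ (Z i)) l i} (hS : UC D.toRg S) (hδ : UC D.toRg δ) :
    UC D.toRg fun i x => fbH κ (Z i) K (D.P i) l (ContinuousLinearMap.adjoint (S i x)) (δ i x) :=
  UC.bil (β := fun i => fbH κ (Z i) K (D.P i) l)
    ⟨1, fun _ => ContinuousLinearMap.opNorm_le_bound₂ _ zero_le_one fun R u => by
      rw [one_mul]; exact norm_fbH_le R u⟩
    (hS.clm (L := fun i => adjL K (Z i)) ⟨1, fun _ => LinearMap.mkContinuous_norm_le _ zero_le_one _⟩)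
    hδ

theorem uc_lft {l l' : ℕ} {R : ∀ i, X i → D.H (Eu κ) l i →L[ℝ] D.H (Eu κ) l' i}
    {δ : ∀ i, X i → D.H (Fm κ K) l i} (hR : UC D.toRg R) (hδ : UC D.toRg δ) :
    UC D.toRg fun i x => lft K (R i x) (δ i x) :=
  UC.bil (β := fun i => (lft K : (D.H (Eu κ) l i →L[ℝ] D.H (Eu κ) l' i) →L[ℝ] _))
    ⟨1, fun _ => norm_lft⟩ hR hδ

theorem rebase0 {w : ∀ i, Y i → M → V} (hj : 4 ≤ j) (h : D.A0 False j w) :
    ∃ δ : ∀ i, X i → D.H V 0 i, UC D.toRg δ ∧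
      ∀ i y, Is (D.P i) 0 _ (δ i (D.pt i y)) fun z => w i y z - w i (D.y₀ i) z :=
  let ⟨_, a, b⟩ := h.rebase
  ⟨_, a.clm (bv_ic j.zero_le), fun i y => is_eq' ((Is.val (D.sup i) hj _).incl j.zero_le)
    fun z => by rw [b i y z, add_sub_cancel_left]⟩

variable (A) in
/-- the data -/
structure St (u : Uw (Eu κ) D G) (j : ℕ) (g : ∀ i, Y i → M → HS κ)
    (π : ∀ i, K →L[ℝ] u.Du.H (Eu κ) 0 i) (φ : J → M → ℝ) : Prop where
  hj : 8 ≤ j
  mo : Mo D G A j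
  ff : D.FF G
  ok : ∀ i, Ok (G i (D.pt i (D.y₀ i))) (A i (D.y₀ i))
  hg : D.A0 False j g
  hπ : Bv π
  hφ : UB D.P φ
  h0 : ∀ i y z, g i y z ≠ 0 → φ i z ≤ 0
  dns : ∀ i, Dense {k | ∃ s, π i k = (u.F i).toH 0 _ s}

variable {u : Uw (Eu κ) D G} {g : ∀ i, Y i → M → HS κ} {π : ∀ i, K →L[ℝ] u.Du.H (Eu κ) 0 i}
  {φ θ : J → M → ℝ} {t : ℝ}

variable (A g π) in
/-- the variation of `θ G g` is Hilbert-Schmidt into the weighted space -/
def Dl (θ : J → M → ℝ) (l : ℕ) : Prop :=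
  ∃ δ : ∀ i, X i → D.H (Fm κ K) l i, UC D.toRg δ ∧ ∀ i y k (s : Sec I (triv M (Eu κ))),
    π i k = (u.F i).toH 0 _ s → Is (D.P i) l _ (ctH κ K (D.P i) l k (δ i (D.pt i y)))
      fun z => θ i z • (uu D G A g i y s.1 z - uu D G A g i (D.y₀ i) s.1 z)

variable (A g π) in
/-- `b` is the field of `θ G g` -/
def Fl (θ : J → M → ℝ) (b : ∀ i, Y i → M → Fm κ K) : Prop := ∀ i y, (D.P i).Cb (b i y) ∧
  ∀ k (s : Sec I (triv M (Eu κ))), π i k = (u.F i).toH 0 _ s →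
    ∀ z, ct k (b i y z) = θ i z • uu D G A g i y s.1 z

namespace St
variable (h : St A u j g π φ)
include h

theorem h4 : 4 ≤ j := h.hj.trans' (by omega)

theorem res (i : J) (y : Y i) (s : Sec I (triv M (Eu κ))) :
    (G i (D.pt i y)).IsRes (A i y) (fun z => opL (g i y z) (s.1 z)) (uu D G A g i y s.1) ∧
      Al (u.F i) (uu D G A g i y s.1) := (h.mo.uw u).res_uu (u.a0 h.h4 h.hg) i y s

theorem near (cac : CacStmt I M ι) (ev : EvStmt I M ι) (ht : 0 < t) (hθ : UB D.P θ)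
    (e0 : ∀ i z, φ i z < t → θ i z = 0) {R : ∀ i, u.Du.H (Eu κ) 0 i →L[ℝ] u.Du.H (Eu κ) 2 i}
    (hR : ∀ i f, Ql (u.Du.P i) (G i (D.pt i (D.y₀ i))) (A i (D.y₀ i)) 0 (R i f) = f)
    {S : ∀ i, X i → K →L[ℝ] u.Du.H (Eu κ) 0 i} (hS : UC D.toRg S)
    {a : ∀ i, X i → D.H (HS κ) 0 i} (ha : UC D.toRg a) :
    ∃ δ : ∀ i, X i → D.H (Fm κ K) 2 i, UC D.toRg δ ∧ ∀ i x k α, Is (D.P i) 0 _ (a i x) α →
      (D.P i).Cb α → (∀ z, t / 2 < φ i z → α z = 0) →
        jj _ (u.F i) (D.F i) 2 (ctH κ K (D.P i) 2 k (δ i x)) =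
          smulH (u.Du.P i) 2 _ (fun z => θ i z * θ i z)
            (R i ((u.Du.P i).mulH 0 _ _ (fun z => opL (α z)) (S i x k))) := by
  obtain ⟨N, n1, n2⟩ := h.mo.exists_N cac ev u h.ok h.hφ hθ (half_lt_self ht) e0
  refine ⟨_, uc_fbH hS (ha.clm n1), fun i x k α a1 a2 a3 => ?_⟩
  rw [ctH_fbH, ContinuousLinearMap.adjoint_adjoint, n2 i _ (hR i) _ _ a1 a2 a3]

theorem far (ev : EvStmt I M ι) (hθ : UB D.P θ) {R : ∀ i, u.Du.H (Eu κ) 0 i →L[ℝ] u.Du.H (Eu κ) 2 i}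
    (hR : ∀ i f, Ql (u.Du.P i) (G i (D.pt i (D.y₀ i))) (A i (D.y₀ i)) 0 (R i f) = f)
    {S : ∀ i, X i → K →L[ℝ] u.Du.H (Eu κ) 4 i} (hS : UC D.toRg S)
    {a : ∀ i, X i → D.H (HS κ) 0 i} (ha : UC D.toRg a) :
    ∃ δ : ∀ i, X i → D.H (Fm κ K) 2 i, UC D.toRg δ ∧ ∀ i x k α v, Is (D.P i) 0 _ (a i x) α →
      Is (u.Du.P i) 4 _ (S i x k) v → Continuous v → ∃ w, Is (u.Du.P i) 0 _ w
        (fun z => opL (α z) (v z)) ∧ jj _ (u.F i) (D.F i) 2 (ctH κ K (D.P i) 2 k (δ i x)) =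
          smulH (u.Du.P i) 2 _ (θ i) (R i w) := by
  obtain ⟨R', r1, r2⟩ := h.mo.exists_R (l := 0) (h.hj.trans' (by omega))
  choose e e1 e2 using fun i => ev κ κ (HS κ) K (D.F i) opL
  have s1 : UC D.toRg fun i x => valB (u.Du.sup i) ∘L S i x :=
    (UC.const (bv_valB (D := u.Du))).comp hS
  refine ⟨_, uc_lft (UC.const ((bv_smulH hθ 2).comp (Dm.UC.bv r1))) (UC.bil ⟨_, e1⟩ ha s1),
    fun i x k α v a1 a2 a3 => ⟨_, (is_jj (u.wt i) (u.pos i)).2 (is_eq'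
      (e2 i _ (valB (u.Du.sup i) ∘L S i x) k _ a1) fun z =>
      congrArg _ (congrFun (a2.val_eq (u.Du.sup i) le_rfl a3) z).symm), ?_⟩⟩
  rw [ctH_lft, ContinuousLinearMap.comp_apply, jj_smulH (u.wt i) (u.pos i) (hθ.cb i)]
  refine congrArg _ (((h.mo.uw u).bij i (D.y₀ i) 0).1 ?_)
  rw [hR, ← jj_Q (u.wt i) (u.pos i) ((h.mo.uw u).ac i _) (h.mo.ac i _), r2]

theorem start (cac : CacStmt I M ι) (ev : EvStmt I M ι) (dn : DnStmt I M ι) (ht : 0 < t)
    (hθ : UB D.P θ) (e0 : ∀ i z, φ i z < t → θ i z = 0) : Dl A g π (fun i z => θ i z * θ i z) 2 := by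
  have hj := h.hj
  obtain ⟨c, c1, c2⟩ := dn κ J X Y D G A j hj h.ff h.mo.a0
  choose a a1 a2 using fun s => rebase0 le_rfl (c1 s)
  obtain ⟨γ, γ1, γ2⟩ := rebase0 h.h4 h.hg
  obtain ⟨η, η1, η2, η3, -⟩ := exists_ucut h.hφ (show t / 4 < t / 2 by linarith)
  obtain ⟨χ, χ1, χ2, χ3, -⟩ := exists_ucut h.hφ (show t / 16 < t / 8 by linarith)
  obtain ⟨T, t1, t2⟩ := (h.mo.uw u).ch0 (u.a0 h.h4 h.hg) h.hπ (UB.const 1)
  obtain ⟨T', t3, t4⟩ := (h.mo.uw u).ch (u.a0 h.h4 h.hg) h.hπ (u.ub.2 h.hφ) h.h0 4 (by omega)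
    (show 0 < t / 16 by linarith) (u.ub.2 χ1) fun i z e => χ2 i z e.le
  obtain ⟨R, -, r4⟩ := (h.mo.uw u).exists_R (l := 0) (by omega)
  have η0 := (UB.const 1).sub η1
  have θ2 : UB D.P fun i z => θ i z * θ i z := hθ.smul hθ
  obtain ⟨δ₁, d1, d2⟩ := h.near cac ev ht hθ e0 (fun i => r4 i _) (UC.const h.hπ) γ1
  choose δ₂ d3 d4 using fun s : Option ι × Option ι => h.near cac ev ht hθ e0 (fun i => r4 i _)
    ((UC.const ((bv_DoH (D := u.Du) 0 s.1).comp (bv_DoH 1 s.2))).comp t1)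
      ((a1 s).clm (bv_smulH η0 0))
  choose δ₃ d5 d6 using fun s : Option ι × Option ι => h.far ev θ2 (fun i => r4 i _)
    ((UC.const ((bv_DoH (D := u.Du) 4 s.1).comp (bv_DoH 5 s.2))).comp t3)
      ((a1 s).clm (bv_smulH η1 0))
  refine ⟨_, (d1.sub (UC.sum d3)).sub (UC.sum d5), fun i y k σ hk => (is_jj (u.wt i) (u.pos i)).1 ?_⟩
  have a₀ := (h.mo.uw u).ac i (D.y₀ i)
  obtain ⟨p1, p2⟩ := h.res i y σ
  obtain ⟨q1, q2⟩ := h.res i (D.y₀ i) σ
  have cb : ∀ s, (D.P i).Cb fun z => c s i y z - c s i (D.y₀ i) z := fun s =>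
    Cb_sub ((c1 s).sz.cb i y) ((c1 s).sz.cb i _)
  have s3 := Wrd81.sm_smul (χ1.sm i) p2.1
  choose w w1 w2 using fun s : Option ι × Option ι => d6 s i (D.pt i y) k _ _
    ((a2 s i y).smulH (η1.cb i)) (is_DoH (is_DoH (t4 i y k σ hk) s3 s.2) (sm_Do _ s3 _) s.1)
      (sm_Do _ (sm_Do _ s3 _) _).continuous
  have f1 := d2 i _ k _ (γ2 i y) (Cb_sub (h.hg.sz.cb i y) (h.hg.sz.cb i _)) fun z e => by
    simp only [show ∀ y, g i y z = 0 from fun y => by_contra fun e' => by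
      linarith [h.h0 i y z e'], sub_zero]
  have f2 := fun s => d4 s i _ k _ ((a2 s i y).smulH (η0.cb i)) (Cb_smul (η0.cb i) (cb s))
    fun z e => by simp only [η3 i z e.le, sub_self, zero_smul]
  simp only [map_sub, map_sum, f1, f2, w2]
  simp only [← map_sum, ← map_sub]
  refine Is.smulH ((u.wt i).Cb.1 (θ2.cb i))
    (a₀.is_of_Q ((h.mo.uw u).bij i (D.y₀ i) 0).1 (p2.sub q2) ?_)
  rw [r4, hk]
  have s4 : Sm I fun z => (1 : ℝ) • uu D G A g i y σ.1 z := Wrd81.sm_smul contMDiff_const p2.1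
  have g1 := (Is.toH (F := u.Du.P i) (k := 0) σ).mulH ((u.wt i).Cb.1 (Cb_clm opL
    (Cb_sub (h.hg.sz.cb i y) (h.hg.sz.cb i (D.y₀ i))))) (Maps.triv (W := Eu κ) _)
  have g2 := is_sum Finset.univ fun (s : Option ι × Option ι) _ =>
    (is_DoH (is_DoH (t2 i y k σ hk) s4 s.2) (sm_Do _ s4 _) s.1).mulH
      ((u.wt i).Cb.1 (Cb_clm opL (Cb_smul (η0.cb i) (cb s)))) (Maps.triv (W := Eu κ) _)
  simp only [ContinuousLinearMap.comp_apply]
  refine is_eq' ((g1.sub g2).sub (is_sum Finset.univ fun s _ => w1 s)) fun z => ?_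
  have d3 : ∀ s : Option ι × Option ι, η i z • Do (u.F i).toPre s.1 (Do (u.F i).toPre s.2
      fun z => χ i z • uu D G A g i y σ.1 z) z = η i z • Do (u.F i).toPre s.1
        (Do (u.F i).toPre s.2 (uu D G A g i y σ.1)) z := fun s => by
    by_cases e : φ i z ≤ t / 4
    · simp only [η2 i z e, zero_smul]
    · refine congrArg _ (do_congr (do_congr ?_ _) _).self_of_nhds
      filter_upwards [(isOpen_lt continuous_const (h.hφ.sm i).continuous).mem_nhds (not_le.1 e)]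
        with x hx
      rw [χ3 i x (by linarith), one_smul]
  have d4 := p1.2.2 z
  rw [c2 i y _ p2.1] at d4
  rw [q_sub a₀.sm p2.1 q2.1, q1.2.2, c2 i _ _ p2.1, eq_sub_of_add_eq d4]
  have d5 : ∀ (r : ℝ) ξ (v : Eu κ), opL (r • ξ : HS κ) v = opL ξ (r • v) := fun r ξ v => by simp
  simp only [Pi.sub_apply, one_smul, d5, show uu u.Du G A g = uu D G A g from rfl, d3,
    do_wt (u.wt i)]
  simp only [sub_smul, one_smul, map_sub, sub_apply, Finset.sum_sub_distrib]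
  abel

variable (hb : ∀ {θ : J → M → ℝ} {t : ℝ}, 0 < t → UB D.P θ → (∀ i z, φ i z < t → θ i z = 0) →
  ∃ b, Fl A g π θ b)

theorem ub {b : ∀ i, Y i → M → Fm κ K} (ht : 0 < t) (hθ : UB D.P θ)
    (e0 : ∀ i z, φ i z < t → θ i z = 0) (hb : Fl A g π θ b) : UB D.P fun i => b i (D.y₀ i) :=
  u.ub.1 ((h.mo.uw u).ub_base (u.a0 h.h4 h.hg) h.hπ (u.ub.2 h.hφ) h.h0 ht (u.ub.2 hθ) e0 h.dns
    (fun i => cb_sm (hb i _).1) fun i => (hb i _).2)

include hb

theorem gain (cac : CacStmt I M ι) (ev : EvStmt I M ι) (dn : DnStmt I M ι) (l : ℕ) (hl : l + 1 ≤ j) :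
    ∀ {θ : J → M → ℝ} {t : ℝ}, 0 < t → UB D.P θ → (∀ i z, φ i z < t → θ i z = 0) →
      Dl A g π θ (l + 2) := by
  induction l with
  | zero =>
    intro θ t ht hθ e0
    obtain ⟨χ, c1, c2, c3, -⟩ := exists_ucut h.hφ (half_lt_self ht)
    obtain ⟨δ, d1, d2⟩ := h.start cac ev dn (half_pos ht) c1 fun i z e => c2 i z e.le
    refine ⟨_, uc_lft (UC.const (bv_smulH hθ 2)) d1, fun i y k s e => ?_⟩
    rw [ctH_lft]
    refine is_eq' ((d2 i y k s e).smulH (hθ.cb i)) fun z => ?_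
    by_cases e1 : φ i z < t
    · simp only [e0 i z e1, zero_smul]
    · simp only [c3 i z (not_lt.1 e1), one_mul, one_smul]
  | succ l ih =>
    intro θ t ht hθ e0
    have hj := h.hj
    obtain ⟨χ, c1, c2, c3, -⟩ := exists_ucut h.hφ (show t / 3 < t / 2 by linarith)
    have c4 := fun i z (e : φ i z < t / 3) => c2 i z e.le
    have t3 : 0 < t / 3 := by linarith
    obtain ⟨δ, d1, d2⟩ := ih (by omega) t3 c1 c4
    obtain ⟨b, b1⟩ := hb t3 c1 c4
    obtain ⟨R, r1, r2⟩ := h.mo.exists_R hl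
    obtain ⟨C, k1, k2⟩ := h.mo.exists_cm (l := l + 1) (by omega) hθ
    obtain ⟨m, rfl⟩ : ∃ m, j = m + 1 := ⟨j - 1, by omega⟩
    have b2 := h.ub t3 c1 c4 b1
    have loc := fun i y (v : M → Eu κ) z => q_loc (F := G i (D.pt i y)) (A := A i y) (u := v)
      (h.hφ.sm i).continuous (half_lt_self ht) (e0 i) (fun z e => c3 i z e.le) z
    have hom : ∀ i y (s : Sec I (triv M (Eu κ))) z, θ i z • (uu D G A g i y s.1 z + lap I
        (G i (D.pt i y)).e (G i (D.pt i y)).dv (A i y) (uu D G A g i y s.1) z) = 0 :=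
      fun i y s z => by
        rw [(h.res i y s).1.2.2]
        by_cases e1 : g i y z = 0
        · simp [e1]
        · rw [e0 i z ((h.h0 i y z e1).trans_lt ht), zero_smul]
    have ctr : ∀ i y k (s : Sec I (triv M (Eu κ))), π i k = (u.F i).toH 0 _ s → ∀ z,
        ct k (θ i z • (b i (D.y₀ i) z + lap I (G i (D.pt i y)).e (G i (D.pt i y)).dv
          (aA K (A i y)) (b i (D.y₀ i)) z)) = θ i z • (uu D G A g i (D.y₀ i) s.1 z + lap I
            (G i (D.pt i y)).e (G i (D.pt i y)).dv (A i y) (uu D G A g i (D.y₀ i) s.1) z) :=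
      fun i y k s e z => by
        rw [map_smul, map_add, ← ct_lap (h.mo.ac i y).sm (b2.sm i), funext ((b1 i _).2 k s e),
          (b1 i _).2 k s e, loc]
    have m4 : 4 ≤ m := by omega
    obtain ⟨ρ, ρ1, ρ2⟩ := (((Lc.fixed hθ).smul m4 ((A0.fixed b2).add ((A0.fixed b2).lap h.ff m4
      (A := fun i y => aA K (A i y)) fun c => ((h.mo.a0 c).toMul (amp K ∘L opL)
        h.mo.hj).congr fun i y x => by simp [aA]))).pure_of_base (ε' := True)
          (A0.zero.congr fun i _ z => ext_dense (h.dns i) fun k ⟨s, e⟩ => by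
            rw [ctr i _ k s e, hom, map_zero])).pure
    refine ⟨_, uc_lft r1 ((uc_lft k1 d1).sub (ρ1.clm (bv_ic (show l + 1 ≤ m by omega)))),
      fun i y k s e => ?_⟩
    obtain ⟨p1, p2⟩ := h.res i y s
    obtain ⟨q1, q2⟩ := h.res i (D.y₀ i) s
    have a := h.mo.ac i y
    have s1 := (p2.sub q2).1
    rw [ctH_lft]
    refine is_of_Qw (u.wt i) (u.pos i) ((h.mo.uw u).ac i y) a ((h.mo.uw u).bij i y _).1
      ((p2.sub q2).smul ((u.wt i).Cb.1 (hθ.cb i))) ?_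
    rw [r2, map_sub, ctH_lft]
    refine is_eq' ((k2 i y _ _ (Wrd81.sm_smul (c1.sm i) s1) (d2 i y k s e)).sub
      (Ten12.Is.ctH ((Is.val (D.sup i) m4 _).incl (by omega)) k)) fun z => ?_
    rw [q_smul a.sm (hθ.sm i) s1, q_sub a.sm p2.1 q2.1, smul_sub, hom, Pi.sub_apply,
      cm_cut (h.hφ.sm i).continuous (half_lt_self ht) (e0 i) fun z e => c3 i z e.le, ← vl, ← ρ2,
      ctr i y k s e]
    abel

/-- **the base fields extend smoothly to the Banach model** -/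
theorem base (cac : CacStmt I M ι) (ev : EvStmt I M ι) (dn : DnStmt I M ι)
    {b : ∀ i, Y i → M → Fm κ K} (ht : 0 < t) (hθ : UB D.P θ)
    (e0 : ∀ i z, φ i z < t → θ i z = 0) (b1 : Fl A g π θ b) : D.A0 False j b := by
  have hj := h.hj
  obtain ⟨l, rfl⟩ : ∃ l, j = l + 2 := ⟨j - 2, by omega⟩
  obtain ⟨δ, d1, d2⟩ := h.gain hb cac ev dn l (by omega) ht hθ e0
  have b2 := h.ub ht hθ e0 b1
  refine ⟨⟨fun i y => (b1 i y).1, b2⟩, _, δ, b2, False.elim, d1, fun i y x => ?_⟩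
  have c1 : Continuous fun z => b i y z - b i (D.y₀ i) z :=
    (cb_sm (b1 i y).1).continuous.sub (b2.sm i).continuous
  rw [vl, (is_dense (h.dns i) c1 fun k ⟨s, e⟩ => is_eq' (d2 i y k s e) fun z => by
    rw [map_sub, (b1 i _).2 k s e, (b1 i _).2 k s e, smul_sub]).val_eq (D.sup i) h.h4 c1,
    add_sub_cancel]

end St

end Crest.Agent.X212.Cys97
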