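import Crest.Agent.X212.Cys97.Fam
import Crest.Agent.X212.Ten12.Lft

/-!
# Row 212, CYC-SM (helper97): `θ² G α` is Hilbert-Schmidt into the weighted space
-/

set_option autoImplicit false
set_option linter.unusedSectionVars false
set_option maxSynthPendingDepth 3
noncomputable section
open scoped Manifold ContDiff Topology InnerProductSpace BoundedContinuousFunction
open MeasureTheory Set Function Filter Real

namespace Crest.Agent.X212.Cys97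
open An Sob92 Prm93 Wz78 Mon62 Cyc79 Ten12 Dm
open Ell97 (UB)
open Nk89 (WtP wm integral_wm)

variable {E : Type} [NormedAddCommGroup E] [NormedSpace ℝ E] [FiniteDimensional ℝ E]
  [MeasurableSpace E] [BorelSpace E]
  {HM : Type} [TopologicalSpace HM] {I : ModelWithCorners ℝ E HM} [I.Boundaryless]
  {M : Type} [TopologicalSpace M] [ChartedSpace HM M] [IsManifold I ∞ M]
  [MeasurableSpace M] [T2Space M] [BorelSpace M] [SecondCountableTopology M] {ι : Type} [Fintype ι]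
  {κ : Type} [Fintype κ] [DecidableEq κ]

section one
variable {P P₀ F : Fr I M ι} {A : ι → M → En κ} {ψ ℓ U θ η ζ : M → ℝ} {l : ℕ}

/-- a smooth multiple of a test section -/
def sS {V : Type} [NormedAddCommGroup V] [InnerProductSpace ℝ V] {f : M → ℝ} (hf : Sm I f)
    (u : Sec I (triv M V)) : Sec I (triv M V) :=
  ⟨fun z => f z • u.1 z, mem_triv (hf.smul u.2.1) (hcs_bil_right (.lsmul ℝ ℝ) f u.2.2.1)⟩

theorem sm_e2 (h : Sm I ψ) : Sm I fun z => exp (2 * ψ z) := Nk89.sm_exp (contMDiff_const.mul h)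

theorem sm_inv {f : M → ℝ} (h : Sm I f) : Sm I fun z => (exp (f z))⁻¹ := by
  simpa only [exp_neg] using Nk89.sm_exp h.neg

theorem sm_wt (hθ : Sm I θ) (hψ : Sm I ψ) (hℓ : Sm I ℓ) :
    Sm I fun y => θ y * exp (2 * ψ y) * (exp (2 * ℓ y))⁻¹ :=
  (hθ.mul (sm_e2 hψ)).mul (sm_inv (f := fun y => 2 * ℓ y) (contMDiff_const.mul hℓ))

theorem res_sec (h : Ok F A) (σ : Sec I (triv M (Eu κ))) : F.IsRes A σ.1 (F.res A σ.1) :=
  (h.res (lv_toH σ) σ.2.1 (Is.toH σ)).1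

theorem sym_res (h : Ok F A) (σ τ : Sec I (triv M (Eu κ))) :
    ∫ z, ⟪F.res A σ.1 z, τ.1 z⟫_ℝ ∂F.μ = ∫ z, ⟪σ.1 z, F.res A τ.1 z⟫_ℝ ∂F.μ := by
  rw [← Cyc79.is_inner (h.res (lv_toH τ) τ.2.1 (Is.toH τ)).2.2, ← h.G_symm, real_inner_comm,
    Cyc79.is_inner (h.res (lv_toH σ) σ.2.1 (Is.toH σ)).2.2]
  simp only [real_inner_comm]

theorem jj_smulH {V : Type} [NormedAddCommGroup V] [InnerProductSpace ℝ V] [CompleteSpace V]
    (h : WtP P₀.toPre P.toPre ψ) (h0 : ∀ x, 0 ≤ ψ x) (hθ : P.Cb θ) (x : HT P.toPre V l) :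
    jj V P₀ P l (smulH P.toPre l _ θ x) = smulH P₀.toPre l _ θ (jj V P₀ P l x) :=
  ((is_jj h h0).2 (Is.smulH hθ EventuallyEq.rfl)).unique
    (((is_jj h h0).2 EventuallyEq.rfl).smulH (h.Cb.1 hθ))

variable (F A ψ ℓ θ η) in
/-- the adjoint kernel -/
def kr (ν : M → Eu κ) (z : M) : Eu κ := (exp (2 * ℓ z) * (exp (ψ z))⁻¹ * η z) •
  F.res A (fun y => (θ y * exp (2 * ψ y) * (exp (2 * ℓ y))⁻¹) • ν y) z

theorem sup_kr (hw : WtP P₀.toPre P.toPre ψ) (hℓ : Sm I ℓ) (hμ : F.μ = wm P₀.μ ℓ) (h : Ok F A)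
    (hU : Wu F U) {c S N L : ℝ} (hc : 0 < c)
    (e : ∀ x, c * U x ≤ exp (2 * ψ x) ∧ c * exp (2 * ψ x) ≤ U x) (hL : ∀ x, |ℓ x| ≤ L)
    (hS : Mp86.L4 F.toPre S) (hS0 : 0 < S) (hζ : Cu F N ζ) (hη : Cu F N η) (hN : 0 < N)
    (h1 : ∀ x, |ζ x| ≤ 1) (h2 : ∀ x, |η x| ≤ 1) (hθ : Sm I θ) (h3 : ∀ x, |θ x| ≤ 1)
    (e1 : ∀ x, ζ x ≠ 0 → θ x = 0) (e2 : ∀ x, η x ≠ 0 → ζ x = 1) (ν : Sec I (triv M (Eu κ))) (z : M) :
    ‖kr F A ψ ℓ θ η ν.1 z‖ ≤ √(6 * kL S N * c⁻¹ ^ 2 * exp (2 * L) ^ 3) * P.nrm 0 ν.1 := by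
  let σ := sS (sm_wt hθ hw.sm hℓ) ν
  have k := sup_w h.tame.choose_spec h.mc hU hS hS0 hζ hη hN h1 h2
    (s := σ.1) (fun x hx => by simp [σ, sS, e1 x hx]) e2 σ.2.1.continuous σ.2.2.1 z
  have k0 := kL_nonneg hS0.le hN.le
  have b1 : ∀ x, exp (2 * ℓ x) ≤ exp (2 * L) := fun x => exp_le_exp.2 (by linarith [abs_le.1 (hL x)])
  have b2 : ∀ x, (exp (2 * ℓ x))⁻¹ ≤ exp (2 * L) := fun x => by
    rw [← exp_neg]; exact exp_le_exp.2 (by linarith [abs_le.1 (hL x)])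
  have k1 : ∫ y, (U y)⁻¹ * ‖σ.1 y‖ ^ 2 ∂F.μ ≤ c⁻¹ * exp (2 * L) * P.nrm 0 ν.1 ^ 2 := by
    rw [← Pre.norm_toH, sq_toH, hw.integral, hμ, integral_wm hℓ.continuous, ← integral_const_mul]
    refine integral_mono_of_nonneg (.of_forall fun y => ?_) (Integrable.const_mul
      (((sm_e2 hw.sm).continuous.smul (ν.2.1.continuous.norm.pow 2)).integrable_of_hasCompactSupport
        (ν.2.2.1.mono fun y hy e => hy (by simp [e]))) _) (.of_forall fun y => ?_)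
    · have := hU.pos y; positivity
    · have a1 : (U y)⁻¹ ≤ (c * exp (2 * ψ y))⁻¹ := inv_anti₀ (by positivity) (e y).2
      have a2 : θ y ^ 2 ≤ 1 := (sq_le_one_iff_abs_le_one _).2 (h3 y)
      simp only [σ, sS, Pi.mul_apply, norm_smul, mul_pow, Real.norm_eq_abs, sq_abs, smul_eq_mul]
      calc _ ≤ exp (2 * ℓ y) * ((c * exp (2 * ψ y))⁻¹ *
            (1 * exp (2 * ψ y) ^ 2 * (exp (2 * ℓ y))⁻¹ ^ 2 * ‖ν.1 y‖ ^ 2)) := by gcongr
        _ = c⁻¹ * (exp (2 * ℓ y))⁻¹ * (exp (2 * ψ y) * ‖ν.1 y‖ ^ 2) := by field_simp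
        _ ≤ _ := by gcongr; exact b2 y
  refine le_of_sq_le_sq ?_ (mul_nonneg (sqrt_nonneg _) (nrm_nonneg _ _))
  have a3 : U z ≤ c⁻¹ * exp (ψ z) ^ 2 := by
    rw [← exp_nat_mul, le_inv_mul_iff₀ hc]; exact (e z).1
  have := hU.pos z
  rw [mul_pow, sq_sqrt (by positivity), kr, mul_smul, norm_smul, mul_pow, Real.norm_eq_abs, sq_abs]
  calc _ ≤ (exp (2 * L) * (exp (ψ z))⁻¹) ^ 2 * (6 * kL S N * (c⁻¹ * exp (ψ z) ^ 2) *
        (c⁻¹ * exp (2 * L) * P.nrm 0 ν.1 ^ 2)) := by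
        refine mul_le_mul (by gcongr; exact (abs_le.1 (hL z)).2) (k.trans ?_) (sq_nonneg _) (sq_nonneg _)
        exact mul_le_mul (by gcongr) k1 (integral_nonneg fun y => by have := hU.pos y; positivity)
          (by positivity)
    _ = _ := by field_simp

theorem exists_Λ (hψ : Sm I ψ) (hℓ : Sm I ℓ) (h : Ok F A) (hθ : Sm I θ) (hη : Sm I η) {c : ℝ}
    (hc : 0 ≤ c) (hb : ∀ (ν : Sec I (triv M (Eu κ))) z, ‖kr F A ψ ℓ θ η ν.1 z‖ ≤ c * P.nrm 0 ν.1) :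
    ∃ Λ : HT P.toPre (Eu κ) 0 →L[ℝ] (M →ᵇ Eu κ), (∀ ν z, Λ (P.toH 0 _ ν) z = kr F A ψ ℓ θ η ν.1 z) ∧
      ‖Λ‖ ≤ c := by
  have s1 := sm_wt hθ hψ hℓ
  obtain ⟨Λ, a, b⟩ := P.exists_ext (k := 0) (X := M →ᵇ Eu κ)
    { toFun := fun ν : Sec I (triv M (Eu κ)) => BoundedContinuousFunction.ofNormedAddCommGroup
        (kr F A ψ ℓ θ η ν.1) ((((sm_e2 hℓ).mul (sm_inv hψ)).mul hη).smul
          (Mp86.sm_res _ _ _)).continuous _ (hb ν)
      map_add' := fun u v => BoundedContinuousFunction.ext fun z => by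
        have := congrFun (Mp86.res_add h.bmp h.mc ⟨_, res_sec h (sS s1 u)⟩ ⟨_, res_sec h (sS s1 v)⟩) z
        simp only [sS, Pi.mul_apply] at this
        change kr F A ψ ℓ θ η _ z = kr F A ψ ℓ θ η _ z + kr F A ψ ℓ θ η _ z
        simp [kr, this]
      map_smul' := fun r u => BoundedContinuousFunction.ext fun z => by
        have := congrFun (Mp86.res_smul h.bmp h.mc r (sS s1 u).1) z
        simp only [sS, Pi.mul_apply] at this
        change kr F A ψ ℓ θ η _ z = r • kr F A ψ ℓ θ η _ z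
        simp [kr, smul_comm _ r, this] } hc
    fun ν => (BoundedContinuousFunction.norm_le (mul_nonneg hc (nrm_nonneg _ _))).2 (hb ν)
  exact ⟨Λ, fun ν z => congrArg (fun f : M →ᵇ Eu κ => f z) (a ν), b⟩

variable (κ) in
/-- the adjoint action -/
def aL : HS κ →L[ℝ] Eu κ →L[ℝ] Eu κ := adjL (Eu κ) (Eu κ) ∘L opL

theorem inner_aL (ξ : HS κ) (v w : Eu κ) : ⟪aL κ ξ v, w⟫_ℝ = ⟪v, opL ξ w⟫_ℝ :=
  ContinuousLinearMap.adjoint_inner_left _ _ _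

theorem cb_ms (hη : Sm I η) (s : Sec I (triv M (Eu κ))) :
    P.Cb fun z => (opL : HS κ →L[ℝ] En κ).flip ((sS hη s).1 z) :=
  Cb_clm _ (Cb_of_hcs (sS hη s).2.1 (sS hη s).2.2.1)

theorem ker_eq (hw : WtP P₀.toPre P.toPre ψ) (h0 : ∀ x, 0 ≤ ψ x) (hℓ : Sm I ℓ)
    (hμ : F.μ = wm P₀.μ ℓ) (h : Ok F A) (a₀ : Ac P₀ F A) (a : Ac P F A)
    (hb : ∀ l, Bijective (Ql P₀.toPre F A l)) (hθ : P.Cb θ) (hη : Sm I η)
    {Λ : HT P.toPre (Eu κ) 0 →L[ℝ] (M →ᵇ Eu κ)} (hΛ : ∀ ν z, Λ (P.toH 0 _ ν) z = kr F A ψ ℓ θ η ν.1 z)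
    {e : HT P₀.toPre (HS κ) 0 →L[ℝ] (HT P.toPre (Eu κ) 0 →L[ℝ] (M →ᵇ Eu κ)) →L[ℝ]
      HT P₀.toPre (Fm κ (HT P.toPre (Eu κ) 0)) 0}
    (he : ∀ x Λ h α, Is P₀.toPre 0 _ x α →
      Is P₀.toPre 0 _ (ctH κ _ P₀.toPre 0 h (e x Λ)) fun z => aL κ (α z) (Λ h z))
    {R : HT P.toPre (Eu κ) 0 →L[ℝ] HT P.toPre (Eu κ) 2} (hR : ∀ f, Ql P.toPre F A 0 (R f) = f)
    (s : Sec I (triv M (Eu κ))) (x : HT P.toPre (HS κ) 0) :
    ctH κ _ P.toPre 0 (P₀.toH 0 _ s) (flp κ κ P₀.toPre P.toPre 0 0 (e (ew _ P₀ P ψ x) Λ)) =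
      smulH P.toPre 0 _ θ (ic P.toPre _ 2 0 (R (P.mulH 0 _ _ (fun z => opL.flip ((sS hη s).1 z)) x))) := by
  refine ext_inner_right ℝ fun v => ?_
  induction x, v using H_ind₂ with
  | hP => exact isClosed_eq (by fun_prop) (by fun_prop)
  | h α ν =>
    let τ : Sec I (triv M (Eu κ)) := ⟨fun z => opL.flip ((sS hη s).1 z) (α.1 z),
      RepT_mem (rep_mulH (F := P.toPre) (k := 0) (cb_ms hη s) (Maps.triv _)) α⟩
    let σ := sS (sm_wt (cb_sm hθ) hw.sm hℓ) ν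
    obtain ⟨r1, r2⟩ := a₀.res hb h.bmp h.sk (al_sec τ)
    have r3 := is_of_Qw hw h0 a₀ a (hb 0).1 r2 (y := R (P.mulH 0 _ _
      (fun z => opL.flip ((sS hη s).1 z)) (P.toH 0 _ α))) (by
        rw [hR, funext r1.2.2]; exact (Is.toH α).mulH (cb_ms hη s) (Maps.triv _))
    have r4 := sym_res h σ τ
    rw [hμ, integral_wm hℓ.continuous, integral_wm hℓ.continuous] at r4
    rw [inner_flp, real_inner_comm, real_inner_comm (P.toH 0 _ ν),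
      Cyc79.is_inner ((r3.incl (Nat.zero_le 2)).smulH hθ), hw.integral,
      Cyc79.is_inner (he _ _ _ _ (is_repT hw (rep_ew hw).1 (Is.toH α)))]
    convert r4 using 3 with z z
    · rw [real_inner_comm, inner_aL, hΛ]
      simp only [kr, σ, τ, sS, map_smul, smul_apply, real_inner_smul_left,
        real_inner_smul_right, smul_eq_mul, ContinuousLinearMap.flip_apply]
      field_simp
    · simp only [σ, sS, Pi.mul_apply, real_inner_smul_left, real_inner_smul_right, smul_eq_mul]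
      field_simp

end one

variable {J : Type} {X Y : J → Type} [∀ i, NormedAddCommGroup (X i)] [∀ i, NormedSpace ℝ (X i)]
  {D : Dm I M ι X Y} {G : ∀ i, X i → Fr I M ι} {A : ∀ i, Y i → ι → M → En κ} {j : ℕ}

theorem Mo.up (h : Mo D G A j) {N : Type} [NormedAddCommGroup N] [NormedSpace ℝ N] {f : J → M → N}
    (hf : UB D.P f) : UB (fun i => (G i (D.pt i (D.y₀ i))).toPre) f :=
  let ⟨_, s1, s2⟩ := h.mix
  ub_mix (fun i => s2 i _ (D.mem i _)) (fun a b => (s1 a b).sz.ub) hf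

theorem Mo.bd0 (h : Mo D G A j) : ∃ K, ∀ i x,
    ‖x‖ ≤ K * ‖Ql (D.P i) (G i (D.pt i (D.y₀ i))) (A i (D.y₀ i)) 0 x‖ := by
  obtain ⟨R, r1, r2⟩ := h.exists_R (l := 0) (h.hj.trans' (by omega))
  obtain ⟨K, hK⟩ := Dm.UC.bv r1
  refine ⟨K, fun i x => ?_⟩
  conv_lhs => rw [← (h.bij i (D.y₀ i) 0).1 (r2 i _ (Ql _ _ _ 0 x))]
  exact ContinuousLinearMap.le_of_opNorm_le _ (hK i) _

/-- **the kernel operator** -/
theorem Mo.exists_N (cac : CacStmt I M ι) (ev : EvStmt I M ι) (h : Mo D G A j) (u : Uw (Eu κ) D G)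
    (ok : ∀ i, Ok (G i (D.pt i (D.y₀ i))) (A i (D.y₀ i))) {φ θ : J → M → ℝ} (hφ : UB D.P φ)
    (hθ : UB D.P θ) {s t : ℝ} (hst : s < t) (e0 : ∀ i z, φ i z < t → θ i z = 0) :
    ∃ N : ∀ i, D.H (HS κ) 0 i →L[ℝ] D.H (Fm κ (u.Du.H (Eu κ) 0 i)) 2 i, Bv N ∧
      ∀ i (R : u.Du.H (Eu κ) 0 i →L[ℝ] u.Du.H (Eu κ) 2 i),
        (∀ f, Ql (u.Du.P i) (G i (D.pt i (D.y₀ i))) (A i (D.y₀ i)) 0 (R f) = f) →
        ∀ x α, Is (D.P i) 0 _ x α → (D.P i).Cb α → (∀ z, s < φ i z → α z = 0) → ∀ k,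
          jj _ (u.F i) (D.F i) 2 (ctH κ _ (D.P i) 2 k (N i x)) =
            smulH (u.Du.P i) 2 _ (fun z => θ i z * θ i z)
              (R ((u.Du.P i).mulH 0 _ _ (fun z => opL (α z)) k)) := by
  obtain ⟨η, η1, η2, η3, η4⟩ := exists_ucut hφ.neg (show -((2 * s + t) / 3) < -s by linarith)
  obtain ⟨ζ, ζ1, ζ2, ζ3, ζ4⟩ :=
    exists_ucut hφ.neg (show -((s + 2 * t) / 3) < -((2 * s + t) / 3) by linarith)
  obtain ⟨χ, χ1, χ2, χ3, χ4⟩ := exists_ucut hφ (show (s + 2 * t) / 3 < t by linarith)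
  obtain ⟨S, s1, s2⟩ := h.mix
  obtain ⟨K, hK⟩ := h.bd0
  obtain ⟨Γ, g1, g2⟩ := cac (Eu κ) J D.F _ D.C _ _ θ χ K D.tame (fun i => s2 i _ (D.mem i _))
    (fun a b => (s1 a b).sz.ub) (fun a => (h.dv a).sz.ub) (fun a => (h.sz a).ub) hθ χ1
    (fun i x hx => χ3 i x (closure_minimal (s := support (θ i)) (fun z hz => not_lt.1 fun e =>
      hz (e0 i z e)) (isClosed_le continuous_const (hφ.sm i).continuous) hx)) hK
  obtain ⟨R, r1, r2⟩ := h.exists_R (l := 0) (h.hj.trans' (by omega))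
  obtain ⟨U, c, c0, hU⟩ := u.wu
  obtain ⟨L, hL⟩ := u.lc.us.sz.ub
  obtain ⟨C₁, k1⟩ := h.up ζ1
  obtain ⟨C₂, k2⟩ := h.up η1
  have n1 : 0 ≤ Fintype.card ι * (C₁ 2 ^ 2 + (1 + |u.C 0|) * |C₁ 2|) := by positivity
  have n2 : 0 ≤ Fintype.card ι * (C₂ 2 ^ 2 + (1 + |u.C 0|) * |C₂ 2|) := by positivity
  choose Λ l1 l2 using fun i => exists_Λ (P := D.F i) (u.wt i).sm (hL i).1 (ok i) (χ1.sm i)
    (η1.sm i) (sqrt_nonneg _) (sup_kr (u.wt i) (hL i).1 (u.μ i _) (ok i) (hU i).1 c0 (hU i).2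
      (CB_bound ((hL i).2 0)) ((Mp86.l4_of_tame (u.tm0 i)).mono
        ((le_abs_self _).trans (le_add_of_nonneg_right zero_le_one))) (by positivity)
      ((cu_of_cbs (u.tm0 i) (k1 i)).mono (le_add_of_nonneg_right (add_nonneg n2 zero_le_one)))
      ((cu_of_cbs (u.tm0 i) (k2 i)).mono (by linarith)) (by positivity) (ζ4 i) (η4 i) (χ1.sm i)
      (χ4 i) (fun x hx => χ2 i x (by_contra fun e => hx (ζ2 i x (by linarith))))
      fun x hx => ζ3 i x (by_contra fun e => hx (η2 i x (by linarith))))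
  choose e e1 e2 using fun i => ev κ κ (HS κ) (D.H (Eu κ) 0 i) (u.F i) (aL κ)
  let f := fun i => (flp κ κ (u.Du.P i) (D.P i) 0 0).toContinuousLinearMap
  have b1 : Bv f := ⟨1, fun i => LinearIsometry.norm_toContinuousLinearMap_le _⟩
  have b2 : Bv fun i => (e i).flip (Λ i) := ⟨_, fun i => ((e i).flip.le_opNorm _).trans
    (mul_le_mul ((e i).opNorm_flip.trans_le (e1 i)) (l2 i) (norm_nonneg _) (by positivity))⟩
  have b3 : Bv fun i => ew (HS κ) (u.F i) (D.F i) (u.ψ i) := ⟨1, fun i => (rep_ew (u.wt i)).2⟩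
  have b4 : Bv fun i => lft (u.Du.H (Eu κ) 0 i) (Γ i) := g1.of_le fun i => opNorm_lft_le _
  refine ⟨_, b4.comp (b1.comp (b2.comp b3)), fun i R₀ hR x α hx hα h0 k => ?_⟩
  have a₀ := (h.uw u).ac i (D.y₀ i)
  induction k using H_ind with
  | hP => exact isClosed_eq (by fun_prop) (by fun_prop)
  | h σ =>
    have h1 := hx.mulH (cb_ms (η1.sm i) σ) (Maps.triv _)
    have h2 : ∀ z, opL.flip ((sS (η1.sm i) σ).1 z) (α z) = opL (α z) (σ.1 z) := fun z => by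
      by_cases e : s < φ i z
      · simp [h0 z e]
      · simp [sS, η3 i z (by linarith)]
    simp only [ContinuousLinearMap.comp_apply, ctH_lft, f, LinearIsometry.coe_toContinuousLinearMap,
      ContinuousLinearMap.flip_apply]
    rw [ker_eq (u.wt i) (u.pos i) (hL i).1 (u.μ i _) (ok i) a₀ (h.ac i _) ((h.uw u).bij i _)
      (χ1.cb i) (η1.sm i) (l1 i) (e2 i) (r2 i _), g2,
      jj_smulH (θ := fun z => θ i z * θ i z) (u.wt i) (u.pos i) ((hθ.smul hθ).cb i)]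
    · refine congrArg _ (((h.uw u).bij i (D.y₀ i) 0).1 ?_)
      rw [hR, ← jj_Q (u.wt i) (u.pos i) a₀ (h.ac i _), r2]
      exact ((is_jj (u.wt i) (u.pos i)).2 h1).unique (is_eq' ((Is.toH σ).mulH
        ((u.wt i).Cb.1 (Cb_clm opL hα)) (Maps.triv _)) h2)
    · rw [r2]
      refine (h1.smulH (χ1.cb i)).unique (is_eq' Is.zero fun z => ?_)
      by_cases e : s < φ i z
      · simp [h0 z e]
      · simp [χ2 i z (by linarith)]

end Crest.Agent.X212.Cys97
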