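import Crest.Agent.X212.Cys97.Defs

/-!
# Row 212, CYC-SM (helper97): the resolvent on all levels of a scale; weighted and unweighted
-/

set_option autoImplicit false
set_option linter.unusedSectionVars false
set_option maxSynthPendingDepth 3
noncomputable section
open scoped Manifold ContDiff Topology InnerProductSpace BoundedContinuousFunction
open MeasureTheory Set Function Filter

namespace Crest.Agent.X212.Cys97
open An Sob92 Prm93 Wz78 Mon62 Cyc79 Ten12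
open Ell97 (UB)
open Nk89 (WtP wm)

variable {E : Type} [NormedAddCommGroup E] [NormedSpace ℝ E] [FiniteDimensional ℝ E]
  [MeasurableSpace E] [BorelSpace E]
  {HM : Type} [TopologicalSpace HM] {I : ModelWithCorners ℝ E HM} [I.Boundaryless]
  {M : Type} [TopologicalSpace M] [ChartedSpace HM M] [IsManifold I ∞ M]
  [MeasurableSpace M] [T2Space M] [BorelSpace M] [SecondCountableTopology M] {ι : Type} [Fintype ι]
  {V W : Type} [NormedAddCommGroup V] [InnerProductSpace ℝ V] [CompleteSpace V]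
  [NormedAddCommGroup W] [InnerProductSpace ℝ W] [CompleteSpace W]
  {P P' F : Fr I M ι} {A : ι → M → V →L[ℝ] V} {u v s : M → V} {k l : ℕ}

theorem is_sum {α : Type*} (t : Finset α) {x : α → HT P.toPre V l} {u : α → M → V}
    (h : ∀ a ∈ t, Is P.toPre l _ (x a) (u a)) :
    Is P.toPre l _ (∑ a ∈ t, x a) fun z => ∑ a ∈ t, u a z := by
  classical
  induction t using Finset.induction_on with
  | empty => simp only [Finset.sum_empty]; exact Is.zero
  | insert a t ha ih =>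
    simp only [Finset.sum_insert ha]
    exact (h a (by simp)).add (ih fun b hb => h b (by simp [hb]))

theorem is_eq' {x : HT P.toPre V l} (h : Is P.toPre l _ x u) (e : ∀ z, v z = u z) :
    Is P.toPre l _ x v := funext e ▸ h

theorem is_neg {x : HT P.toPre V l} (h : Is P.toPre l _ x u) : Is P.toPre l _ (-x) fun z => -u z :=
  is_eq' (neg_one_smul ℝ x ▸ h.smul (-1)) fun z => by simp

/-- smooth functions which lie in all levels -/
def Al (P : Fr I M ι) (u : M → V) : Prop := Sm I u ∧ ∀ k, ∃ x : HT P.toPre V k, Is P.toPre k _ x u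

theorem al_sec (u : Sec I (triv M V)) : Al P u.1 := ⟨u.2.1, fun _ => ⟨_, Is.toH u⟩⟩

theorem Al.add (h : Al P u) (h' : Al P v) : Al P fun z => u z + v z :=
  ⟨h.1.add h'.1, fun k => let ⟨_, a⟩ := h.2 k; let ⟨_, b⟩ := h'.2 k; ⟨_, a.add b⟩⟩

theorem Al.sub (h : Al P u) (h' : Al P v) : Al P fun z => u z - v z :=
  ⟨h.1.sub h'.1, fun k => let ⟨_, a⟩ := h.2 k; let ⟨_, b⟩ := h'.2 k; ⟨_, a.sub b⟩⟩

theorem Al.app (h : Al P u) {T : M → V →L[ℝ] W} (hT : P.Cb T) : Al P fun z => T z (u z) :=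
  ⟨(cb_sm hT).clm_apply h.1, fun k => let ⟨_, a⟩ := h.2 k; ⟨_, a.mulH hT (Maps.triv _)⟩⟩

theorem Al.smul (h : Al P u) {f : M → ℝ} (hf : P.Cb f) : Al P fun z => f z • u z :=
  ⟨(cb_sm hf).smul h.1, fun k => let ⟨_, a⟩ := h.2 k; ⟨_, a.smulH hf⟩⟩

theorem Al.D (h : Al P u) (a : ι) : Al P (P.D a u) :=
  ⟨P.sm_D h.1 a, fun k => let ⟨_, b⟩ := h.2 (k + 1); ⟨_, b.DH h.1 a⟩⟩

theorem Al.Do (h : Al P u) : ∀ a : Option ι, Al P (Do P.toPre a u)
  | none => h
  | some a => h.D a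

theorem Al.cb {S : ℝ} (hS : Sup P.toPre S) (h : Al P u) : P.Cb u := by
  obtain ⟨x, hx⟩ := h.2 4
  rw [← hx.val_eq hS le_rfl h.1.continuous]
  exact Cb_val hS le_rfl fun j hj => let ⟨y, hy⟩ := h.2 j; ⟨y, (hy.incl hj).unique hx⟩

variable (P F A) in
/-- the frame `F` and the connection `A` act on the scale of `P` -/
structure Ac : Prop where
  sup : ∃ S, Sup P.toPre S
  mix : ∃ S, Mix P.toPre F.toPre S ∧ ∀ a b, P.Cb (S a b)
  dv : ∀ c, P.Cb (F.dv c)
  cb : ∀ c, P.Cb (A c)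

theorem cm_eq (hA : ∀ c, Sm I (A c)) {χ : M → ℝ} (hχ : Sm I χ) (hu : Sm I u) (z : M) :
    F.op (cmS F V χ) (cmB F A χ) u z = -∑ c, (F.D c χ z • nab I F.e A c u z +
      (nab I F.e A c (fun y => F.D c χ y • u y) z + F.dv c z • F.D c χ z • u z)) := by
  have e : ∀ c, Sob92.dv I (F.e c) (fun y => F.D c χ y • u y) z =
      F.D c (F.D c χ) z • u z + F.D c χ z • F.D c u z := fun c =>
    Sob92.dv_smul ((F.sm_D hχ c).mdifferentiableAt (by simp)) (hu.mdifferentiableAt (by simp))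
  simp only [Pre.op, cmS, cmB, nab, e, _root_.sum_apply, sub_apply, smul_apply,
    ContinuousLinearMap.id_apply, ← Finset.sum_add_distrib, ← Finset.sum_neg_distrib, map_smul]
  refine Finset.sum_congr rfl fun c _ => ?_
  simp only [← Pre.D_def]
  module

namespace Ac
variable (h : Ac P F A)
include h

theorem sm (c : ι) : Sm I (A c) := cb_sm (h.cb c)

theorem act : Act V P.toPre F := let ⟨_, a, b⟩ := h.mix; act_mix a b h.dv

theorem cbF {N : Type} [NormedAddCommGroup N] [NormedSpace ℝ N] {f : M → N} (hf : P.Cb f) :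
    F.Cb f := let ⟨_, a, b⟩ := h.mix; a.Cb b hf

theorem cbD {N : Type} [NormedAddCommGroup N] [NormedSpace ℝ N] {f : M → N} (hf : P.Cb f) (c : ι) :
    P.Cb (F.D c f) := by
  obtain ⟨_, a, b⟩ := h.mix
  rw [a.D]
  exact Cb_sum _ fun d _ => Cb_smul (b c d) (Cb_D hf d)

theorem rep (l : ℕ) : P.Rep (Ql P.toPre F A l) fun u x => u x + lap I F.e F.dv A u x :=
  rep_QQ h.act ⟨fun c => rep_mulH (h.cb c) (Maps.triv _), fun c => rep_mulH (h.cb c) (Maps.triv _)⟩

theorem is_Dt {x : HT P.toPre V (l + 1)} (hx : Is P.toPre (l + 1) _ x u) (hu : Sm I u) (c : ι) :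
    Is P.toPre l _ (Dt V P.toPre F l c x) (F.D c u) := by
  obtain ⟨S, a, b⟩ := h.mix
  rw [Dt_eq a b, a.D, _root_.sum_apply]
  exact is_sum _ fun d _ => (hx.DH hu d).smulH (b c d)

theorem is_Nb {x : HT P.toPre V (l + 1)} (hx : Is P.toPre (l + 1) _ x u) (hu : Sm I u) (c : ι) :
    Is P.toPre l _ (Nb P.toPre F l (P.mulH l _ _ (A c)) c x) (nab I F.e A c u) :=
  (h.is_Dt hx hu c).add ((hx.incl l.le_succ).mulH (h.cb c) (Maps.triv _))

theorem is_Q {x : HT P.toPre V (l + 2)} (hx : Is P.toPre (l + 2) _ x u) (hu : Sm I u) :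
    Is P.toPre l _ (Ql P.toPre F A l x) fun z => u z + lap I F.e F.dv A u z := by
  rw [Ql, QQ, sub_apply, _root_.sum_apply]
  refine is_eq' ((hx.incl (l.le_add_right 2)).sub (is_sum _ fun c _ =>
    (h.is_Nb (h.is_Nb hx hu c) (sm_nab h.sm c hu) c).add
      (((h.is_Nb hx hu c).incl l.le_succ).smulH (h.dv c)))) fun z => ?_
  simp only [lap, Pi.sub_apply, Pi.add_apply, sub_eq_add_neg]

theorem ic_Q (hl : k ≤ l) (x : HT P.toPre V (l + 2)) : ic P.toPre V l k (Ql P.toPre F A l x) =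
    Ql P.toPre F A k (ic P.toPre V (l + 2) (k + 2) x) :=
  Rep_incl (h.rep l) (h.rep k) (by omega) hl x

theorem al_Q (hu : Al P u) : Al P fun z => u z + lap I F.e F.dv A u z :=
  ⟨hu.1.add (sm_lap h.sm hu.1), fun k => let ⟨_, a⟩ := hu.2 (k + 2); ⟨_, h.is_Q a hu.1⟩⟩

/-- uniqueness -/
theorem is_of_Q (hi : Injective (Ql P.toPre F A l)) (hv : Al P v) {y : HT P.toPre V (l + 2)}
    (hy : Is P.toPre l _ (Ql P.toPre F A l y) fun z => v z + lap I F.e F.dv A v z) :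
    Is P.toPre (l + 2) _ y v := by
  obtain ⟨x, hx⟩ := hv.2 (l + 2)
  rwa [hi (hy.unique (h.is_Q hx hv.1))]

/-- existence -/
theorem res (hb : ∀ l, Bijective (Ql P.toPre F A l)) (hB : Mp86.Bumps I F.e F.dv)
    (hk : ∀ c x, Skew (A c x)) (hs : Al P s) : F.IsRes A s (F.res A s) ∧ Al P (F.res A s) := by
  obtain ⟨S, hS⟩ := h.sup
  obtain ⟨T, a, b⟩ := h.mix
  choose σ hσ using hs.2
  choose x hx using fun k => (hb k).2 (σ k)
  have e : ∀ {k l}, k ≤ l → ic P.toPre V (l + 2) (k + 2) (x l) = x k := fun {k l} hl =>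
    (hb k).1 (by rw [← h.ic_Q hl, hx, hx]; exact ((hσ l).incl hl).unique (hσ k))
  have h1 : P.Cb (P.val 6 _ (x 4)) := Cb_val hS (by omega) fun j hj => by
    obtain ⟨k, rfl⟩ : ∃ k, j = k + 2 := ⟨j - 2, by omega⟩
    exact ⟨x k, e (by omega)⟩
  have h2 : F.IsRes A s (P.val 6 _ (x 4)) := ⟨cb_sm h1, cb_bdd h1, fun z => by
    rw [← val_QQ hS a b h.dv le_rfl h.cb, ← Ql, hx, (hσ 4).val_eq hS le_rfl hs.1.continuous]⟩
  rw [Mp86.res_eq hB ⟨h.sm, hk⟩ h2]
  refine ⟨h2, cb_sm h1, fun k => ⟨ic P.toPre V (k + 4 + 2) k (x (k + 4)), Is.incl ?_ (by omega)⟩⟩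
  refine Is.of_incl (j := 4 + 2) (by omega) ?_
  rw [show P.incl (k + 4 + 2) (4 + 2) _ (x (k + 4)) = x 4 from e (by omega)]
  exact Is.val hS (by omega) _

end Ac

/-! ### the weighted scale inside the unweighted scale -/

section wt
variable {ψ : M → ℝ}

variable (V P P') in
/-- the inclusion -/
def jj (l : ℕ) : HT P'.toPre V l →L[ℝ] HT P.toPre V l := P'.liftT l l _ P.toPre _ id

theorem rep_jj (h : WtP P.toPre P'.toPre ψ) (h0 : ∀ x, 0 ≤ ψ x) (l : ℕ) :
    P'.RepT P.toPre (jj V P P' l) id ∧ ‖jj V P P' l‖ ≤ 1 :=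
  rep_liftT (fun _ hu => hu) (fun _ _ _ _ => rfl) (fun _ _ _ => rfl) zero_le_one fun u hu => by
    rw [one_mul]; exact h.nrm_le h0 l hu.1 hu.2.1

theorem ae_wt (h : WtP P.toPre P'.toPre ψ) {p : M → Prop} (hp : ∀ᵐ x ∂P.μ, p x) :
    ∀ᵐ x ∂P'.μ, p x := by
  rw [h.μ]; exact (withDensity_absolutelyContinuous _ _).ae_le hp

theorem is_repT {χ : M → ℝ} (h : WtP P.toPre P'.toPre ψ) {T : HT P'.toPre V k →L[ℝ] HT P.toPre V l}
    (hT : P'.RepT P.toPre T fun u z => χ z • u z) {x : HT P'.toPre V k}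
    (hx : Is P'.toPre k _ x u) : Is P.toPre l _ (T x) fun z => χ z • u z := by
  obtain ⟨w, h1, h2⟩ := exists_seq_ae x
  refine ae_eq_of_tendsto (((P.toL2 l _).continuous.tendsto _).comp
    ((T.continuous.tendsto _).comp h1)) ?_
  filter_upwards [ae_wt h.symm h2, ae_wt h.symm hx,
    ae_all_iff.2 fun n => toL2_toH (F := P.toPre) (k := l) ⟨_, RepT_mem hT (w n)⟩] with y a b c
  simp only [comp_apply, RepT_toH hT, c, ← b]
  exact a.const_smul _

theorem is_jj (h : WtP P.toPre P'.toPre ψ) (h0 : ∀ x, 0 ≤ ψ x) {x : HT P'.toPre V l} :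
    Is P.toPre l _ (jj V P P' l x) u ↔ Is P'.toPre l _ x u := by
  have key : ∀ {u}, Is P'.toPre l _ x u → Is P.toPre l _ (jj V P P' l x) u := fun hx => by
    simpa using is_repT (χ := fun _ => 1) h
      (RepT_congr (rep_jj h h0 l).1 fun _ => funext fun _ => (one_smul ℝ _).symm) hx
  exact ⟨fun hx => ae_wt h ((key EventuallyEq.rfl).symm.trans hx), key⟩

theorem Al.jj (h : WtP P.toPre P'.toPre ψ) (h0 : ∀ x, 0 ≤ ψ x) (hu : Al P' u) : Al P u :=
  ⟨hu.1, fun k => let ⟨_, a⟩ := hu.2 k; ⟨_, (is_jj h h0).2 a⟩⟩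

theorem jj_Q (h : WtP P.toPre P'.toPre ψ) (h0 : ∀ x, 0 ≤ ψ x) (a : Ac P F A) (a' : Ac P' F A)
    (x : HT P'.toPre V (l + 2)) :
    jj V P P' l (Ql P'.toPre F A l x) = Ql P.toPre F A l (jj V P P' (l + 2) x) :=
  DFunLike.congr_fun (RepT_eq (RepT_comp (rep_jj h h0 l).1 (a'.rep l))
    (RepT_comp (a.rep l) (rep_jj h h0 (l + 2)).1) fun _ => rfl) x

/-- uniqueness on the weighted scale through the unweighted scale -/
theorem is_of_Qw (h : WtP P.toPre P'.toPre ψ) (h0 : ∀ x, 0 ≤ ψ x) (a : Ac P F A) (a' : Ac P' F A)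
    (hi : Injective (Ql P.toPre F A l)) (hv : Al P v) {y : HT P'.toPre V (l + 2)}
    (hy : Is P'.toPre l _ (Ql P'.toPre F A l y) fun z => v z + lap I F.e F.dv A v z) :
    Is P'.toPre (l + 2) _ y v :=
  (is_jj h h0).1 (a.is_of_Q hi hv (by rw [← jj_Q h h0 a a']; exact (is_jj h h0).2 hy))

variable (V P P' ψ) in
/-- multiplication by the weight -/
def ew : HT P'.toPre V 0 →L[ℝ] HT P.toPre V 0 :=
  P'.liftT 0 0 _ P.toPre _ fun u z => Real.exp (ψ z) • u z

theorem rep_ew (h : WtP P.toPre P'.toPre ψ) :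
    P'.RepT P.toPre (ew V P P' ψ) (fun u z => Real.exp (ψ z) • u z) ∧ ‖ew V P P' ψ‖ ≤ 1 :=
  rep_liftT (fun u hu => mem_triv ((Nk89.sm_exp h.sm).smul hu.1)
      (hcs_bil_right (ContinuousLinearMap.lsmul ℝ ℝ) _ hu.2.1))
    (fun u _ v _ => funext fun x => by simp) (fun c u _ => funext fun x => by
      simp [smul_comm c]) zero_le_one fun u _ => by rw [one_mul, h.nrm_zero]; rfl

theorem inner_ew (h : WtP P.toPre P'.toPre ψ) (x y : HT P'.toPre V 0) :
    ⟪ew V P P' ψ x, ew V P P' ψ y⟫_ℝ = ⟪x, y⟫_ℝ := by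
  induction x, y using H_ind₂ with
  | hP => exact isClosed_eq (by fun_prop) (by fun_prop)
  | h u v =>
    rw [RepT_toH (rep_ew h).1, RepT_toH (rep_ew h).1, Pre.inner_toH, Pre.inner_toH, h.ip_zero]

end wt

/-! ### tests on dense sets -/

section dense
variable {κ K : Type} [Fintype κ] [DecidableEq κ] [NormedAddCommGroup K] [InnerProductSpace ℝ K]
  [CompleteSpace K] {S : Set K}

theorem ext_dense (hS : Dense S) {v w : Fm κ K} (h : ∀ k ∈ S, ct k v = ct k w) : v = w :=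
  ext_ct fun k => (isClosed_eq (cont_ct v) (cont_ct w)).closure_subset_iff.2 h (hS k)

theorem is_dense (hS : Dense S) {x : HT P.toPre (Fm κ K) l} {α : M → Fm κ K} (hα : Continuous α)
    (H : ∀ h ∈ S, Is P.toPre l _ (ctH κ K P.toPre l h x) fun z => ct h (α z)) :
    Is P.toPre l _ x α := by
  refine is_of_ctH hα.aestronglyMeasurable fun h => ?_
  obtain ⟨w, h1, h2⟩ := mem_closure_iff_seq_limit.1 (hS h)
  refine ae_eq_of_tendsto (((P.toL2 l _).continuous.tendsto _).comp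
    ((((ctH κ K P.toPre l).flip x).continuous.tendsto _).comp h2)) ?_
  filter_upwards [ae_all_iff.2 fun n => H _ (h1 n)] with y a
  simp only [comp_apply, ContinuousLinearMap.flip_apply, a]
  exact ((cont_ct _).tendsto _).comp h2

theorem norm_dense (hS : Dense S) {v : Fm κ K} {c : ℝ} (hc : 0 ≤ c)
    (h : ∀ k ∈ S, ‖ct k v‖ ≤ c * ‖k‖) : ‖v‖ ≤ √(Fintype.card κ) * c := by
  have h1 : ∀ k, ‖ct k v‖ ≤ c * ‖k‖ := fun k =>
    (isClosed_le (cont_ct v).norm (by fun_prop)).closure_subset_iff.2 h (hS k)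
  have := norm_of_ct (p := 1) (v := v) (c := c ^ 2) (fun _ _ => rfl) (fun _ => rfl) (fun k => by
    rw [← mul_pow]; exact pow_le_pow_left₀ (norm_nonneg _) (h1 k) 2) (sq_nonneg c)
  refine le_of_sq_le_sq ?_ (by positivity)
  rw [mul_pow, Real.sq_sqrt (Nat.cast_nonneg _)]
  simpa using this

end dense

end Crest.Agent.X212.Cys97
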